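import Vale.Agent.P216.H962.SlH

/-!
# Reflection of one coordinate of the cube (P216, block [RHO])

`rf i v` = `v` with the `i`-th coordinate replaced by `1 - v i`. `KV_rf`, `slT_rf`, `Sl_rf`: the
integral over the cube changes its sign.
-/

open Set

namespace Vale.Agent.P216.H901

open Vale.Agent.P216.DV965 Vale.Agent.P216.AS Vale.Agent.P216.H962

variable {k : Type} [Field k] {E E' E'' E₁ : Type}

/-- Reflection of the coordinate `i`. -/
def rf {m : ℕ} (i : Fin m) (v : Fin m → ℝ) : Fin m → ℝ := Function.update v i (1 - v i)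

@[simp] theorem rf_same {m : ℕ} (i : Fin m) (v : Fin m → ℝ) : rf i v i = 1 - v i :=
  Function.update_self ..

theorem rf_ne {m : ℕ} {i j : Fin m} (h : j ≠ i) (v : Fin m → ℝ) : rf i v j = v j :=
  Function.update_of_ne h ..

@[simp] theorem rf_rf {m : ℕ} (i : Fin m) (v : Fin m → ℝ) : rf i (rf i v) = v := by
  funext j
  by_cases h : j = i
  · subst h
    rw [rf_same, rf_same, sub_sub_cancel]
  · rw [rf_ne h, rf_ne h]

theorem rf_snoc_last {m : ℕ} (v : Fin m → ℝ) (r : ℝ) :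
    rf (Fin.last m) (Fin.snoc v r : Fin (m + 1) → ℝ) = Fin.snoc v (1 - r) := by
  funext j
  refine Fin.lastCases ?_ (fun j => ?_) j
  · rw [rf_same, Fin.snoc_last, Fin.snoc_last]
  · rw [rf_ne (Fin.castSucc_lt_last j).ne, Fin.snoc_castSucc, Fin.snoc_castSucc]

theorem rf_snoc_castSucc {m : ℕ} (i : Fin m) (v : Fin m → ℝ) (r : ℝ) :
    rf i.castSucc (Fin.snoc v r : Fin (m + 1) → ℝ) = Fin.snoc (rf i v) r := by
  funext j
  refine Fin.lastCases ?_ (fun j => ?_) j
  · rw [rf_ne (Fin.castSucc_lt_last i).ne', Fin.snoc_last, Fin.snoc_last]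
  · by_cases h : j = i
    · subst h
      rw [rf_same, Fin.snoc_castSucc, Fin.snoc_castSucc, rf_same]
    · rw [rf_ne (fun e => h (Fin.castSucc_injective _ e)), Fin.snoc_castSucc, Fin.snoc_castSucc,
        rf_ne h]

/-- **Reflection of one coordinate changes the sign of the integral over the cube.** -/
theorem KV_rf : ∀ {m : ℕ} (i : Fin m) (C : TC k (E × (Fin m → ℝ))),
    KV m (pT (fun p => (p.1, rf i p.2)) C) = -KV m C
  | 0, i, _ => i.elim0
  | m + 1, i, C => by
    refine Fin.lastCases ?_ (fun i => ?_) i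
    · have e : pT snE (pT (fun p : E × (Fin (m + 1) → ℝ) => (p.1, rf (Fin.last m) p.2)) C) =
          pT (fun p : (E × (Fin m → ℝ)) × ℝ => (p.1, 1 - p.2)) (pT snE C) := by
        rw [pT_pT, pT_pT]
        congr 2
        funext p
        simp only [Function.comp, snE, rf_snoc_last]
      rw [KV_succ, KV_succ, e, KT_refl, map_neg]
    · have e : pT snE (pT (fun p : E × (Fin (m + 1) → ℝ) => (p.1, rf i.castSucc p.2)) C) =
          pT (Prod.map (fun p : E × (Fin m → ℝ) => (p.1, rf i p.2)) id) (pT snE C) := by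
        rw [pT_pT, pT_pT]
        congr 2
        funext p
        simp only [Function.comp, snE, Prod.map, id, rf_snoc_castSucc]
      rw [KV_succ, KV_succ, e, KT_pT, KV_rf i]

/-- The slant by the reflected family. -/
theorem slT_rf {m : ℕ} (i : Fin m) (F : E × (Fin m → ℝ) → E') (f₀ : E → E') (C : TC k E') :
    slT m (fun p => F (p.1, rf i p.2)) f₀ C = -slT m F f₀ C := by
  rw [slT_apply, slT_apply, ← KV_rf i]
  rfl

theorem rf_mem_Jc {m : ℕ} {i : Fin m} {v : Fin m → ℝ} (h : v ∈ Jc m) : rf i v ∈ Jc m := by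
  intro j
  by_cases hj : j = i
  · subst hj
    rw [rf_same]
    exact ⟨by linarith [(h j).2], by linarith [(h j).1]⟩
  · rw [rf_ne hj]
    exact h j

theorem rf_mem_Bg {m : ℕ} {i : Fin m} {v : Fin m → ℝ} (h : v ∈ Bg m) : rf i v ∈ Bg m := by
  intro j
  by_cases hj : j = i
  · subst hj
    rw [rf_same]
    exact ⟨by linarith [(h j).2], by linarith [(h j).1]⟩
  · rw [rf_ne hj]
    exact h j

theorem abs_rf {m : ℕ} (i j : Fin m) (v : Fin m → ℝ) : |rf i v j - 1 / 2| = |v j - 1 / 2| := by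
  by_cases hj : j = i
  · subst hj
    rw [rf_same, ← abs_neg]
    congr 1
    ring
  · rw [rf_ne hj]

theorem rf_out {m : ℕ} {i : Fin m} {v : Fin m → ℝ} (h : Out v) : Out (rf i v) := by
  obtain ⟨j, hj⟩ := h
  exact ⟨j, by rwa [abs_rf]⟩

theorem dist_rf_le {m : ℕ} (i : Fin m) (v w : Fin m → ℝ) : dist (rf i v) (rf i w) ≤ dist v w := by
  rw [dist_pi_le_iff dist_nonneg]
  intro j
  refine le_trans (le_of_eq ?_) (dist_le_pi_dist v w j)
  by_cases hj : j = i
  · subst hj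
    rw [rf_same, rf_same, Real.dist_eq, Real.dist_eq, ← abs_neg]
    congr 1
    ring
  · rw [rf_ne hj, rf_ne hj]

section Metric

variable [PseudoMetricSpace E] [PseudoMetricSpace E'] {m : ℕ} {A : Set E} {Y : Set E'}
  {F : E × (Fin m → ℝ) → E'} {f₀ : E → E'}

theorem uM_rf (A : Set E) (i : Fin m) :
    UM (A ×ˢ Bg m) (A ×ˢ Bg m) fun p : E × (Fin m → ℝ) => (p.1, rf i p.2) := by
  refine UM.of_dist_le (fun p hp => ⟨hp.1, rf_mem_Bg hp.2⟩) fun p _ q _ => ?_
  rw [Prod.dist_eq, Prod.dist_eq]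
  exact max_le_max le_rfl (dist_rf_le i _ _)

/-- The reflected family. -/
theorem _root_.Vale.Agent.P216.H962.IsFm.rf (h : IsFm A Y F f₀) (i : Fin m) :
    IsFm A Y (fun p => F (p.1, rf i p.2)) f₀ where
  um := h.um.comp (uM_rf A i)
  out x hx _ hv ho := h.out x hx _ (rf_mem_Bg hv) (rf_out ho)

/-- **The slant by the reflected family is the opposite.** -/
theorem Sl_rf (h2 : (2 : k) ≠ 0) (hm : 1 ≤ m) (h : IsFm A Y F f₀) (i : Fin m)
    {G : E × (Fin m → ℝ) → E'} {g₀ : E → E'} (h' : IsFm A Y G g₀)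
    (e : ∀ x ∈ A, ∀ v ∈ Jc m, G (x, v) = F (x, rf i v)) (e0 : ∀ x ∈ A, g₀ x = f₀ x) (q : ℕ)
    (x : Ha (tr E') (on k) Y (q + m)) : Sl h2 hm h' q x = -Sl h2 hm h q x := by
  rw [Sl_congr h2 hm h' (h.rf i) e e0 q]
  obtain ⟨c, hc, rfl⟩ := H.exists_mk x
  have e1 : slT m (fun p => F (p.1, rf i p.2)) f₀ (sgl (q + m + 1) c) (q + 1) =
      -slT m F f₀ (sgl (q + m + 1) c) (q + 1) := by
    rw [slT_rf]
    rfl
  have e2 : Sl h2 hm (h.rf i) q (H.mk c hc) = H.mk (-slC m F f₀ q c)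
      (Submodule.neg_mem _ (slC_mem h2 hm h hc)) := by
    rw [Sl_mk]
    congr 1
  rw [e2, Sl_mk]
  rfl

end Metric

end Vale.Agent.P216.H901
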