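import Vale.Agent.P216.H901.WangPull
import Vale.Agent.P216.H901.Refl

/-!
# Reflection of one coordinate of `Z × (I^n, ∂I^n)` (P216, block [RHO])

`cuR i : Cu E n → Cu E n`: the reflection of the coordinate `i`. `susN_cuR`: the iterated suspension
anticommutes with it. `susN_cuMR`: the same for `(f × reflection)`.
-/

set_option linter.unusedVariables false

open Set

namespace Vale.Agent.P216.H901

open Vale.Agent.P216.AS Vale.Agent.P216.H83 Vale.Agent.P216.H962

variable {k : Type} [Field k]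

/-- The reflection of the coordinate `i`. -/
def cuR {E : Type} : ∀ {n : ℕ} (_ : Fin n), Cu E n → Cu E n
  | 0, i => i.elim0
  | n + 1, i => Fin.lastCases (motive := fun _ => Cu E (n + 1) → Cu E (n + 1))
      (fun p => (p.1, 1 - p.2)) (fun j p => (cuR j p.1, p.2)) i

theorem cuR_last {E : Type} (n : ℕ) :
    (cuR (Fin.last n) : Cu E (n + 1) → Cu E (n + 1)) = fun p => (p.1, 1 - p.2) :=
  Fin.lastCases_last (motive := fun _ => Cu E (n + 1) → Cu E (n + 1)) ..

theorem cuR_castSucc {E : Type} {n : ℕ} (j : Fin n) :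
    (cuR j.castSucc : Cu E (n + 1) → Cu E (n + 1)) = Prod.map (cuR j) id :=
  Fin.lastCases_castSucc (motive := fun _ => Cu E (n + 1) → Cu E (n + 1)) (i := j) ..

section Met

variable {E E' : Type} [MetricSpace E] [MetricSpace E']

theorem isMap_flip (Z : Set E) :
    IsMap (tr (E × ℝ)) (tr (E × ℝ)) (cyl Z) (cyl Z) fun p : E × ℝ => (p.1, 1 - p.2) where
  mapsX p hp := ⟨hp.1, by linarith [hp.2.2], by linarith [hp.2.1]⟩
  eqv i := i.elim
  uc ε hε := ⟨ε, hε, fun x _ y _ h => by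
    rw [Prod.dist_eq] at h ⊢
    have : dist (1 - x.2) (1 - y.2) = dist x.2 y.2 := by
      rw [Real.dist_eq, Real.dist_eq, ← abs_neg]
      congr 1
      ring
    rwa [this]⟩

omit [MetricSpace E] in
theorem mapsTo_flip (Z A : Set E) :
    MapsTo (fun p : E × ℝ => (p.1, 1 - p.2)) (bcyl Z A) (bcyl Z A) := by
  rintro p (hp | hp)
  · refine Or.inl ⟨hp.1, ?_⟩
    rcases hp.2 with h | h
    · right
      change 1 - p.2 = 1
      rw [h, sub_zero]
    · left
      change 1 - p.2 = 0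
      have : p.2 = 1 := h
      rw [this, sub_self]
  · exact Or.inr ⟨hp.1, by linarith [hp.2.2], by linarith [hp.2.1]⟩

/-- The suspension anticommutes with the flip of the interval. -/
theorem sus_flip (h2 : (2 : k) ≠ 0) {Z A : Set E} (hA : A ⊆ Z) (q : ℕ)
    (h : IsMap (tr (E × ℝ)) (tr (E × ℝ)) (cyl Z) (cyl Z) fun p : E × ℝ => (p.1, 1 - p.2))
    (hb : MapsTo (fun p : E × ℝ => (p.1, 1 - p.2)) (bcyl Z A) (bcyl Z A))
    (x : Hr (tr (E × ℝ)) (on k) (cyl Z) (bcyl Z A) (q + 1)) :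
    sus h2 Z A q (pullR (on k) h (bcyl_subset hA) hb (q + 1) x) = -sus h2 Z A q x := by
  obtain ⟨c, hc, rfl⟩ := H.exists_mk x
  rw [pullR_mk, sus_mk, sus_mk]
  refine H.mk_eq_mk.2 ?_
  have : K1 k E (q + 1) (pbK k (fun p : E × ℝ => (p.1, 1 - p.2)) (q + 1) c) =
      -K1 k E (q + 1) c := K1_refl c
  rw [this]
  change -K1 k E (q + 1) c - (-K1 k E (q + 1) c) ∈ _
  rw [sub_self]
  exact Submodule.zero_mem _

theorem isMap_cuR {Z : Set E} : ∀ {n : ℕ} (i : Fin n),
    IsMap (tr (Cu E n)) (tr (Cu E n)) (cub n Z) (cub n Z) (cuR i)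
  | 0, i => i.elim0
  | n + 1, i => by
    refine Fin.lastCases ?_ (fun j => ?_) i
    · rw [cuR_last]
      exact isMap_flip (cub n Z)
    · rw [cuR_castSucc]
      exact isMap_cyl (isMap_cuR j)

omit [MetricSpace E] in
theorem mapsTo_cuR_cub {Z : Set E} : ∀ {n : ℕ} (i : Fin n),
    MapsTo (cuR i) (cub n Z) (cub n Z)
  | 0, i => i.elim0
  | n + 1, i => by
    refine Fin.lastCases ?_ (fun j => ?_) i
    · rw [cuR_last]
      exact fun p hp => ⟨hp.1, by linarith [hp.2.2], by linarith [hp.2.1]⟩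
    · rw [cuR_castSucc]
      exact fun p hp => ⟨mapsTo_cuR_cub j hp.1, hp.2⟩

omit [MetricSpace E] in
theorem mapsTo_cuR {Z : Set E} : ∀ {n : ℕ} (i : Fin n),
    MapsTo (cuR i) (bdc n Z) (bdc n Z)
  | 0, i => i.elim0
  | n + 1, i => by
    refine Fin.lastCases ?_ (fun j => ?_) i
    · rw [cuR_last]
      exact mapsTo_flip (cub n Z) (bdc n Z)
    · rw [cuR_castSucc]
      exact mapsTo_bcyl (mapsTo_cuR_cub j) (mapsTo_cuR j)

/-- **The iterated suspension anticommutes with the reflection of a coordinate.** -/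
theorem susN_cuR (h2 : (2 : k) ≠ 0) {Z : Set E} (q : ℕ) : ∀ {n : ℕ} (i : Fin n)
    (h : IsMap (tr (Cu E n)) (tr (Cu E n)) (cub n Z) (cub n Z) (cuR i))
    (hb : MapsTo (cuR i) (bdc n Z) (bdc n Z))
    (x : Hr (tr (Cu E n)) (on k) (cub n Z) (bdc n Z) (q + n)),
    susN h2 Z q n (pullR (on k) h (bdc_subset n Z) hb (q + n) x) = -susN h2 Z q n x
  | 0, i, _, _, _ => i.elim0
  | n + 1, i, h, hb, x => by
    revert h hb
    refine Fin.lastCases ?_ (fun j => ?_) i
    · rw [cuR_last]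
      intro h hb
      exact (congrArg (susN h2 Z q n) (sus_flip h2 (bdc_subset n Z) (q + n) h hb x)).trans
        (map_neg (susN h2 Z q n) _)
    · rw [cuR_castSucc]
      intro h hb
      exact (congrArg (susN h2 Z q n) (sus_pullR h2 (isMap_cuR j) (bdc_subset n Z) (mapsTo_cuR j)
        (q + n) x)).trans (susN_cuR h2 q j (isMap_cuR j) (mapsTo_cuR j)
          (sus h2 (cub n Z) (bdc n Z) (q + n) x))

/-- **The iterated suspension and `f × reflection`.** -/
theorem susN_cuMR (h2 : (2 : k) ≠ 0) {Z : Set E} {Z' : Set E'} {f : E → E'}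
    (h : IsMap (tr E) (tr E') Z Z' f) (h0 : MapsTo f (∅ : Set E) (∅ : Set E')) (q : ℕ) {n : ℕ}
    (i : Fin n)
    (hc : IsMap (tr (Cu E n)) (tr (Cu E' n)) (cub n Z) (cub n Z') (cuM f n ∘ cuR i))
    (hb : MapsTo (cuM f n ∘ cuR i) (bdc n Z) (bdc n Z'))
    (x : Hr (tr (Cu E' n)) (on k) (cub n Z') (bdc n Z') (q + n)) :
    susN h2 Z q n (pullR (on k) hc (bdc_subset n Z) hb (q + n) x) =
      -pullR (on k) h (empty_subset Z) h0 q (susN h2 Z' q n x) := by
  have e := pullR_comp (χ := on k) (isMap_cuM h n) (isMap_cuR i) (bdc_subset n Z)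
    (bdc_subset n Z) (mapsTo_cuR i) (mapsTo_cuM_bdc h.mapsX n) x
  have e' : pullR (on k) hc (bdc_subset n Z) hb (q + n) x =
      pullR (on k) (isMap_cuR i) (bdc_subset n Z) (mapsTo_cuR i) (q + n)
        (pullR (on k) (isMap_cuM h n) (bdc_subset n Z) (mapsTo_cuM_bdc h.mapsX n) (q + n) x) := e
  rw [e', susN_cuR, susN_pull h2 h h0]

end Met

end Vale.Agent.P216.H901
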