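import Vale.Agent.P216.H971.RList
import Vale.Agent.P216.H901.SusRefl

/-!
# Naturality of the Wang data under a map of degree `-1` of the base (P216, [R-E])

`stWangF : H971.StWangF`.
-/

set_option linter.unusedVariables false

open Set

namespace Vale.Agent.P216.H901

open Vale.Agent.P216.AS Vale.Agent.P216.H83 Vale.Agent.P216.H971

variable {k : Type} [Field k]

section Sh

variable {E : Type} [PseudoMetricSpace E] {A A' : ℝ → Set E} {φ : ℝ → ℝ} {R : E → E}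

omit [PseudoMetricSpace E] in
theorem mapsTo_lvl {A' : ℝ → Set E} (hA' : Mono A') (φ_pos : ∀ t, 0 < t → 0 < φ t)
    (hs : ∀ t, 0 < t → MapsTo R (A' t) (A' (φ t))) {s t : ℝ} (h0 : 0 < s) (h : φ s ≤ t) :
    MapsTo R (A' s) (A' t) := fun x hx => hA' _ _ (φ_pos s h0) h (hs s h0 hx)

theorem isMap_lvl (hA : Mono A) (φ_pos : ∀ t, 0 < t → 0 < φ t)
    (hm : ∀ t, 0 < t → IsMap (tr E) (tr E) (A t) (A (φ t)) R) {s t : ℝ} (h0 : 0 < s)
    (h : φ s ≤ t) : IsMap (tr E) (tr E) (A s) (A t) R :=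
  IsMap.toSub (hm s h0) (hA _ _ (φ_pos s h0) h)

/-- The operator of one map for all levels, on pairs. -/
noncomputable def shOf (k : Type) [Field k] (hA : Mono A) (hA' : Mono A')
    (hAA : ∀ t, A' t ⊆ A t) (φ_pos : ∀ t, 0 < t → 0 < φ t)
    (hm : ∀ t, 0 < t → IsMap (tr E) (tr E) (A t) (A (φ t)) R)
    (hs : ∀ t, 0 < t → MapsTo R (A' t) (A' (φ t))) (q : ℕ) : ShOp (PMr k A A' hA hA' q) φ where
  r s t h0 ht h := pullR (on k) (isMap_lvl hA φ_pos hm h0 h) (hAA s) (mapsTo_lvl hA' φ_pos hs h0 h) q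
  nat s t s' t' hs ht hs' ht' h h' h₁ h₂ x := by
    obtain ⟨c, hc, rfl⟩ := H.exists_mk x
    rfl

/-- The operator of one map for all levels, absolute cohomology. -/
noncomputable def shOfa (k : Type) [Field k] (hA : Mono A) (φ_pos : ∀ t, 0 < t → 0 < φ t)
    (hm : ∀ t, 0 < t → IsMap (tr E) (tr E) (A t) (A (φ t)) R) (q : ℕ) :
    ShOp (PMa k A hA q) φ where
  r s t h0 ht h := pull (on k) (isMap_lvl hA φ_pos hm h0 h) q
  nat s t s' t' hs ht hs' ht' h h' h₁ h₂ x := by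
    obtain ⟨c, hc, rfl⟩ := H.exists_mk x
    rfl

end Sh

section Main

variable {E E' M : Type} [MetricSpace E] [MetricSpace E'] [MetricSpace M] {m : ℕ}
  {ev : E → M} {X : ℝ → Set E} {Om : ℝ → Set E'} {c : ℝ} {T : Triv (m + 1) ev X Om c}
  {f : M → M} {φ : ℝ → ℝ} {R : E → E} {S : E' → E'} (U : TrivMap T f φ R S)

include U

theorem tm_R {D : Set M} (hD : MapsTo f D D) (t : ℝ) (ht : 0 < t) :
    MapsTo R (ovr ev X D t) (ovr ev X D (φ t)) := fun w hw =>
  ⟨(U.R_map t ht).mapsX hw.1, by rw [U.ev_R t ht w hw.1]; exact hD hw.2⟩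

theorem tm_pm : MapsTo f (T.Dp ∩ T.Dm) (T.Dp ∩ T.Dm) := fun x hx => ⟨U.f_p hx.1, U.f_m hx.2⟩

theorem tm_map {D : Set M} (hD : MapsTo f D D) (t : ℝ) (ht : 0 < t) :
    IsMap (tr E) (tr E) (ovr ev X D t) (ovr ev X D (φ t)) R :=
  (U.R_map t ht).mono (ovr_sub ev X D t) (tm_R U hD t ht)

/-- The operator on the based loops. -/
noncomputable def rG (k : Type) [Field k] (q : ℕ) : ShOp (PMa k Om T.Om_mono q) φ :=
  shOfa k T.Om_mono U.φ_pos U.S_map q

/-- The operator on the total space. -/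
noncomputable def rX (k : Type) [Field k] (q : ℕ) : ShOp (PMa k X T.X_mono q) φ :=
  shOfa k T.X_mono U.φ_pos U.R_map q

/-- The operator on the relative groups. -/
noncomputable def rP (k : Type) [Field k] (q : ℕ) :
    ShOp (PMr k X (ovr ev X T.Dm) T.X_mono (mono_ovr T.X_mono _) q) φ :=
  shOf k T.X_mono (mono_ovr T.X_mono _) (fun t => ovr_sub ev X T.Dm t) U.φ_pos U.R_map
    (tm_R U U.f_m) q

/-- The operator on the part over `D₋`. -/
noncomputable def rQ (k : Type) [Field k] (q : ℕ) :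
    ShOp (PMr k (ovr ev X T.Dm) (fun _ => ∅) (mono_ovr T.X_mono _) mono_empty q) φ :=
  shOf k (mono_ovr T.X_mono _) mono_empty (fun t => empty_subset _) U.φ_pos (tm_map U U.f_m)
    (fun t _ => mapsTo_empty _ _) q

theorem rα (h2 : (2 : k) ≠ 0) (q : ℕ) (x : ((T.wang h2).P q).Fam) (t : ℝ) (ht : 0 < t) :
    (T.wang h2).α q t ht (((rP U k q).fop.f x).z t ht) =
    ((rX U k q).fop.f (x.map (fun t ht => (T.wang h2).α q t ht) ((T.wang h2).α_nat q))).z t ht := by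
  set M' : ℝ := max (φ t) 1
  have hM : 0 < M' := lt_max_of_lt_right one_pos
  have m1 : IsMap (tr E) (tr E) (X t) (X M') R := isMap_lvl T.X_mono U.φ_pos U.R_map ht
    (le_max_left _ _)
  have s1 : MapsTo R (ovr ev X T.Dm t) (ovr ev X T.Dm M') := mapsTo_lvl (mono_ovr T.X_mono _)
    U.φ_pos (tm_R U U.f_m) ht (le_max_left _ _)
  have s0 : MapsTo R (∅ : Set E) (∅ : Set E) := mapsTo_empty _ _
  have e2 := lesA_pull (k := k) m1 (ovr_sub ev X T.Dm t) s1 s0 q (x.z M' hM)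
  have e3 := absE_symm_pull (k := k) m1 s0 q (lesA k (X M') (ovr ev X T.Dm M') q (x.z M' hM))
  change (absE k (X t) q).symm (lesA k (X t) (ovr ev X T.Dm t) q (pullR (on k) m1
    (ovr_sub ev X T.Dm t) s1 q (x.z M' hM))) = pull (on k) m1 q ((absE k (X M') q).symm
      (lesA k (X M') (ovr ev X T.Dm M') q (x.z M' hM)))
  exact (congrArg (absE k (X t) q).symm e2.symm).trans e3.symm

theorem rβ (h2 : (2 : k) ≠ 0) (q : ℕ) (x : (PMa k X T.X_mono q).Fam) (t : ℝ) (ht : 0 < t) :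
    (T.wang h2).β q t ht (((rX U k q).fop.f x).z t ht) =
    ((rQ U k q).fop.f (x.map (fun t ht => (T.wang h2).β q t ht) ((T.wang h2).β_nat q))).z t ht := by
  set M' : ℝ := max (φ t) 1
  have hM : 0 < M' := lt_max_of_lt_right one_pos
  have m1 : IsMap (tr E) (tr E) (X t) (X M') R := isMap_lvl T.X_mono U.φ_pos U.R_map ht
    (le_max_left _ _)
  have m2 : IsMap (tr E) (tr E) (ovr ev X T.Dm t) (ovr ev X T.Dm M') R :=
    isMap_lvl (mono_ovr T.X_mono _) U.φ_pos (tm_map U U.f_m) ht (le_max_left _ _)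
  have s0 : MapsTo R (∅ : Set E) (∅ : Set E) := mapsTo_empty _ _
  have e2 := lesB_pull (k := k) m1 m2 s0 (ovr_sub ev X T.Dm t) (ovr_sub ev X T.Dm M') q
    (absE k (X M') q (x.z M' hM))
  have e3 := absE_pull (k := k) m1 s0 q (x.z M' hM)
  change lesB k (ovr_sub ev X T.Dm t) q (absE k (X t) q (pull (on k) m1 q (x.z M' hM))) =
    pullR (on k) m2 (empty_subset _) s0 q (lesB k (ovr_sub ev X T.Dm M') q
      (absE k (X M') q (x.z M' hM)))
  exact (congrArg (lesB k (ovr_sub ev X T.Dm t) q) e3.symm).trans e2.symm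

theorem rδ (h2 : (2 : k) ≠ 0) (q : ℕ) (x : ((T.wang h2).Q q).Fam) (t : ℝ) (ht : 0 < t) :
    (T.wang h2).δ q t ht (((rQ U k q).fop.f x).z t ht) =
    ((rP U k (q + 1)).fop.f (x.map (fun t ht => (T.wang h2).δ q t ht)
      ((T.wang h2).δ_nat q))).z t ht := by
  set M' : ℝ := max (φ t) 1
  have hM : 0 < M' := lt_max_of_lt_right one_pos
  have m1 : IsMap (tr E) (tr E) (X t) (X M') R := isMap_lvl T.X_mono U.φ_pos U.R_map ht
    (le_max_left _ _)
  have s1 : MapsTo R (ovr ev X T.Dm t) (ovr ev X T.Dm M') := mapsTo_lvl (mono_ovr T.X_mono _)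
    U.φ_pos (tm_R U U.f_m) ht (le_max_left _ _)
  have m2 : IsMap (tr E) (tr E) (ovr ev X T.Dm t) (ovr ev X T.Dm M') R :=
    isMap_lvl (mono_ovr T.X_mono _) U.φ_pos (tm_map U U.f_m) ht (le_max_left _ _)
  have s0 : MapsTo R (∅ : Set E) (∅ : Set E) := mapsTo_empty _ _
  exact (lesD_pull (k := k) m1 m2 (ovr_sub ev X T.Dm t) s1 s0 q (x.z M' hM)).symm

/-- The direction `g` of the interleaving over `D₋`. -/
theorem rQ_g (h2 : (2 : k) ≠ 0) (q : ℕ) (o : (PMa k Om T.Om_mono q).Fam) (s : ℝ) (hs : 0 < s) :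
    (((T.wang h2).iQ q).symm.fFam T.c0 ((rG U k q).fop.f o)).z s hs =
    ((rQ U k q).fop.f (((T.wang h2).iQ q).symm.fFam T.c0 o)).z s hs := by
  have hc := T.c0
  obtain ⟨t', h1, h1', Hh⟩ := U.tm s hs
  have hφ := U.φ_pos s hs
  have ht' : 0 < t' := by linarith
  have hsc : 0 < s + c := by linarith
  have s0 : MapsTo R (∅ : Set E) (∅ : Set E) := mapsTo_empty _ _
  -- the maps
  have m1 : IsMap (tr E) (tr E') (ovr ev X T.Dm s) (Om (s + c)) (T.tm.f s) :=
    T.tm.map_f T.Om_mono T.c0 hs le_rfl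
  have m2 : IsMap (tr E') (tr E') (Om (s + c)) (Om t') S :=
    isMap_lvl T.Om_mono U.φ_pos U.S_map hsc h1'
  have m3 : IsMap (tr E) (tr E') (ovr ev X T.Dm (φ s)) (Om t') (T.tm.f (φ s)) :=
    T.tm.map_f T.Om_mono T.c0 hφ h1
  have m4 : IsMap (tr E) (tr E) (ovr ev X T.Dm s) (ovr ev X T.Dm (φ s)) R := tm_map U U.f_m s hs
  have z1 : MapsTo (S ∘ T.tm.f s) (∅ : Set E) (∅ : Set E') := mapsTo_empty _ _
  have z2 : MapsTo (T.tm.f (φ s) ∘ R) (∅ : Set E) (∅ : Set E') := mapsTo_empty _ _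
  have l1 : (((T.wang h2).iQ q).symm.fFam T.c0 ((rG U k q).fop.f o)).z s hs =
      ((T.wang h2).iQ q).g s (s + c) hs le_rfl (((rG U k q).fam o).z (s + c) hsc) := rfl
  have l2 : ((rG U k q).fam o).z (s + c) hsc = pull (on k) m2 q (o.z t' ht') :=
    ((rG U k q).r_fam o hsc ht' h1').symm
  have l3 : ((rQ U k q).fop.f (((T.wang h2).iQ q).symm.fFam T.c0 o)).z s hs =
      pullR (on k) m4 (empty_subset _) s0 q
        ((((T.wang h2).iQ q).symm.fFam T.c0 o).z (φ s) hφ) :=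
    ((rQ U k q).r_fam (((T.wang h2).iQ q).symm.fFam T.c0 o) hs hφ le_rfl).symm
  have l4 : (((T.wang h2).iQ q).symm.fFam T.c0 o).z (φ s) hφ =
      ((T.wang h2).iQ q).g (φ s) t' hφ h1 (o.z t' ht') :=
    (((T.wang h2).iQ q).symm.f_fam T.c0 o hφ ht' h1).symm
  rw [l1, l2, l3, l4]
  have r1 : ((T.wang h2).iQ q).g s (s + c) hs le_rfl (pull (on k) m2 q (o.z t' ht')) =
      pullR (on k) (m2.comp m1) (empty_subset _) z1 q (absE k (Om t') q (o.z t' ht')) := by
    generalize o.z t' ht' = y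
    obtain ⟨c, hc, rfl⟩ := H.exists_mk y
    rfl
  have r2 : pullR (on k) m4 (empty_subset _) s0 q
      (((T.wang h2).iQ q).g (φ s) t' hφ h1 (o.z t' ht')) =
      pullR (on k) (m3.comp m4) (empty_subset _) z2 q (absE k (Om t') q (o.z t' ht')) := by
    generalize o.z t' ht' = y
    obtain ⟨c, hc, rfl⟩ := H.exists_mk y
    rfl
  refine r1.trans (Eq.trans ?_ r2.symm)
  exact (LinearMap.congr_fun (Hh.pullR_eq (k := k) (empty_subset _) (m3.comp m4) z2 (m2.comp m1) z1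
    q) _).symm

omit U [MetricSpace E'] in
theorem cuMR_eq (S : E' → E') (m : ℕ) :
    (cuM S (m + 1) ∘ cuR (Fin.last m) : Cu E' (m + 1) → Cu E' (m + 1)) =
      rlC ∘ cuM S (m + 1) := by
  funext z
  change cuM S (m + 1) (cuR (Fin.last m) z) = rlC (cuM S (m + 1) z)
  rw [cuR_last]
  rfl

/-- The direction `g` of the interleaving of the relative groups: the sign. -/
theorem rP_g (h2 : (2 : k) ≠ 0) (q : ℕ) (o : (PMa k Om T.Om_mono q).Fam) (s : ℝ) (hs : 0 < s) :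
    (((T.wang h2).iP q).symm.fFam T.c0 ((rG U k q).fop.f o)).z s hs =
    (-1 : k) • ((rP U k (q + (m + 1))).fop.f
      (((T.wang h2).iP q).symm.fFam T.c0 o)).z s hs := by
  have hc := T.c0
  obtain ⟨t', h1, h1', Hh⟩ := U.tp s hs
  have hφ := U.φ_pos s hs
  have ht' : 0 < t' := by linarith
  have hsc : 0 < s + c := by linarith
  have s0 : MapsTo S (∅ : Set E') (∅ : Set E') := mapsTo_empty _ _
  -- the maps
  have m1 : IsMap (tr E) (tr (Cu E' (m + 1))) (ovr ev X T.Dp s) (cub (m + 1) (Om (s + c)))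
      (T.tp.f s) := T.tp.map_f (mono_cub (m + 1) T.Om_mono) T.c0 hs le_rfl
  have n1 : MapsTo (T.tp.f s) (ovr ev X (T.Dp ∩ T.Dm) s) (bdc (m + 1) (Om (s + c))) :=
    T.tp.sub_f (mono_bdc (m + 1) T.Om_mono) T.c0 hs le_rfl
  have m2 : IsMap (tr E') (tr E') (Om (s + c)) (Om t') S :=
    isMap_lvl T.Om_mono U.φ_pos U.S_map hsc h1'
  have m2' : IsMap (tr (Cu E' (m + 1))) (tr (Cu E' (m + 1))) (cub (m + 1) (Om (s + c)))
      (cub (m + 1) (Om t')) (cuM S (m + 1) ∘ cuR (Fin.last m)) :=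
    (isMap_cuM m2 (m + 1)).comp (isMap_cuR (Fin.last m))
  have n2' : MapsTo (cuM S (m + 1) ∘ cuR (Fin.last m)) (bdc (m + 1) (Om (s + c)))
      (bdc (m + 1) (Om t')) := (mapsTo_cuM_bdc m2.mapsX (m + 1)).comp (mapsTo_cuR (Fin.last m))
  have m3 : IsMap (tr E) (tr (Cu E' (m + 1))) (ovr ev X T.Dp (φ s)) (cub (m + 1) (Om t'))
      (T.tp.f (φ s)) := T.tp.map_f (mono_cub (m + 1) T.Om_mono) T.c0 hφ h1
  have n3 : MapsTo (T.tp.f (φ s)) (ovr ev X (T.Dp ∩ T.Dm) (φ s)) (bdc (m + 1) (Om t')) :=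
    T.tp.sub_f (mono_bdc (m + 1) T.Om_mono) T.c0 hφ h1
  have m4 : IsMap (tr E) (tr E) (ovr ev X T.Dp s) (ovr ev X T.Dp (φ s)) R := tm_map U U.f_p s hs
  have n4 : MapsTo R (ovr ev X (T.Dp ∩ T.Dm) s) (ovr ev X (T.Dp ∩ T.Dm) (φ s)) :=
    tm_R U (tm_pm U) s hs
  have hpp : ∀ t, ovr ev X (T.Dp ∩ T.Dm) t ⊆ ovr ev X T.Dp t := fun t =>
    ovr_mono subset_rfl inter_subset_left
  have hpm : ∀ t, ovr ev X (T.Dp ∩ T.Dm) t ⊆ ovr ev X T.Dm t := fun t =>
    ovr_mono subset_rfl inter_subset_right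
  -- the families
  have l1 : (((T.wang h2).iP q).symm.fFam T.c0 ((rG U k q).fop.f o)).z s hs =
      ((T.wang h2).iP q).g s (s + c) hs le_rfl (((rG U k q).fam o).z (s + c) hsc) := rfl
  have l2 : ((rG U k q).fam o).z (s + c) hsc = pull (on k) m2 q (o.z t' ht') :=
    ((rG U k q).r_fam o hsc ht' h1').symm
  have l3 : ((rP U k (q + (m + 1))).fop.f (((T.wang h2).iP q).symm.fFam T.c0 o)).z s hs =
      pullR (on k) (U.R_map s hs) (ovr_sub ev X T.Dm s) (tm_R U U.f_m s hs) (q + (m + 1))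
        ((((T.wang h2).iP q).symm.fFam T.c0 o).z (φ s) hφ) :=
    ((rP U k (q + (m + 1))).r_fam (((T.wang h2).iP q).symm.fFam T.c0 o) hs hφ le_rfl).symm
  have l4 : (((T.wang h2).iP q).symm.fFam T.c0 o).z (φ s) hφ =
      ((T.wang h2).iP q).g (φ s) t' hφ h1 (o.z t' ht') :=
    (((T.wang h2).iP q).symm.f_fam T.c0 o hφ ht' h1).symm
  rw [l1, l2, l3, l4]
  -- the core
  have key : ∀ y : Ha (tr E') (on k) (Om t') q,
      (excE h2 T.ev_cont T.closed_p T.closed_m T.union (T.X_comp s hs) (q + (m + 1))).symm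
        (pullR (on k) m1 (hpp s) n1 (q + (m + 1))
          ((susN h2 (Om (s + c)) q (m + 1)).symm (absE k (Om (s + c)) q
            (pull (on k) m2 q y)))) =
      (-1 : k) • pullR (on k) (U.R_map s hs) (ovr_sub ev X T.Dm s) (tm_R U U.f_m s hs)
        (q + (m + 1))
        ((excE h2 T.ev_cont T.closed_p T.closed_m T.union (T.X_comp (φ s) hφ)
          (q + (m + 1))).symm (pullR (on k) m3 (hpp (φ s)) n3 (q + (m + 1))
            ((susN h2 (Om t') q (m + 1)).symm (absE k (Om t') q y)))) := by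
    intro y
    set z' : Hr (tr (Cu E' (m + 1))) (on k) (cub (m + 1) (Om t')) (bdc (m + 1) (Om t'))
      (q + (m + 1)) := (susN h2 (Om t') q (m + 1)).symm (absE k (Om t') q y) with hz'
    rw [LinearEquiv.symm_apply_eq, map_smul]
    -- excision
    have e3 : ∀ w : Hr (tr E) (on k) (X (φ s)) (ovr ev X T.Dm (φ s)) (q + (m + 1)),
        excE h2 T.ev_cont T.closed_p T.closed_m T.union (T.X_comp s hs) (q + (m + 1))
          (pullR (on k) (U.R_map s hs) (ovr_sub ev X T.Dm s)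
          (tm_R U U.f_m s hs) (q + (m + 1)) w) =
        pullR (on k) m4 (hpp s) n4 (q + (m + 1)) (excE h2 T.ev_cont T.closed_p T.closed_m T.union
          (T.X_comp (φ s) hφ) (q + (m + 1)) w) :=
      fun w => (pullR_resR (k := k) (U.R_map s hs) m4 (ovr_sub ev X T.Dm s) (tm_R U U.f_m s hs)
        (hpp s) n4 (ovr_sub ev X T.Dp s) (hpm s) (ovr_sub ev X T.Dp (φ s)) (hpm (φ s)) _ w).symm
    rw [e3, LinearEquiv.apply_symm_apply]
    -- suspension
    have e4 : (susN h2 (Om (s + c)) q (m + 1)).symm (absE k (Om (s + c)) q (pull (on k) m2 q y)) =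
        -pullR (on k) m2' (bdc_subset _ _) n2' (q + (m + 1)) z' := by
      rw [LinearEquiv.symm_apply_eq, map_neg, susN_cuMR h2 m2 s0 q (Fin.last m) m2' n2' z', hz',
        LinearEquiv.apply_symm_apply, neg_neg]
      exact (absE_pull (k := k) m2 s0 q y).symm
    rw [e4, map_neg, neg_one_smul]
    congr 1
    -- homotopy
    have g1 : MapsTo ((cuM S (m + 1) ∘ cuR (Fin.last m)) ∘ T.tp.f s) (ovr ev X (T.Dp ∩ T.Dm) s)
        (bdc (m + 1) (Om t')) := n2'.comp n1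
    have g2 : MapsTo (T.tp.f (φ s) ∘ R) (ovr ev X (T.Dp ∩ T.Dm) s) (bdc (m + 1) (Om t')) :=
      n3.comp n4
    have r1 : pullR (on k) m1 (hpp s) n1 (q + (m + 1)) (pullR (on k) m2' (bdc_subset _ _) n2'
        (q + (m + 1)) z') = pullR (on k) (m2'.comp m1) (hpp s) g1 (q + (m + 1)) z' :=
      (pullR_comp m2' m1 (hpp s) (bdc_subset _ _) n1 n2' z').symm
    have r2 : pullR (on k) m4 (hpp s) n4 (q + (m + 1)) (pullR (on k) m3 (hpp (φ s)) n3
        (q + (m + 1)) z') = pullR (on k) (m3.comp m4) (hpp s) g2 (q + (m + 1)) z' :=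
      (pullR_comp m3 m4 (hpp s) (hpp (φ s)) n4 n3 z').symm
    rw [r1, r2]
    have e5 : (cuM S (m + 1) ∘ cuR (Fin.last m)) ∘ T.tp.f s =
        rlC ∘ cuM S (m + 1) ∘ T.tp.f s := by
      rw [cuMR_eq, Function.comp_assoc]
    have H2 : Hp (ovr ev X T.Dp s) (ovr ev X (T.Dp ∩ T.Dm) s) (cub (m + 1) (Om t'))
        (bdc (m + 1) (Om t')) (T.tp.f (φ s) ∘ R)
        ((cuM S (m + 1) ∘ cuR (Fin.last m)) ∘ T.tp.f s) := by
      rw [e5]
      exact Hh
    exact (LinearMap.congr_fun (H2.pullR_eq (k := k) (hpp s) (m3.comp m4) g2 (m2'.comp m1) g1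
      (q + (m + 1))) z').symm
  exact key (o.z t' ht')

/-- **The operators on the Wang data.** -/
noncomputable def wangF (h2 : (2 : k) ≠ 0) : WangF (T.wang h2) (-1) where
  OG q := (rG U k q).fop
  OX q := (rX U k q).fop
  OP q := (rP U k q).fop
  OQ q := (rQ U k q).fop
  α := rα U h2
  β := rβ U h2
  δ := rδ U h2
  iQ q x t ht := by
    have h := intl_g_of_f ((T.wang h2).iQ q).symm T.c0 (rG U k q).fop (rQ U k q).fop 1
      (fun o s hs => by rw [one_smul]; exact rQ_g U h2 q o s hs) x t ht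
    rw [one_smul] at h
    exact h.symm
  iP q x t ht := by
    have h := intl_g_of_f ((T.wang h2).iP q).symm T.c0 (rG U k q).fop (rP U k (q + (m + 1))).fop
      (-1) (rP_g U h2 q) x t ht
    have h' : ((T.wang h2).iP q).fFam T.c0 ((rP U k (q + (m + 1))).fop.f x) =
      ((T.wang h2).iP q).symm.symm.fFam T.c0 ((rP U k (q + (m + 1))).fop.f x) := rfl
    have h3 := congrArg (fun v => (-1 : k) • v) h
    simp only [smul_smul, neg_mul_neg, one_mul, one_smul] at h3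
    exact h3.symm

end Main

/-- **[R-E]** -/
theorem stWangF : StWangF := by
  intro E E' M _ _ _ m ev X Om c T f φ R S U k _ h2
  refine ⟨wangF U h2, fun q o s t hs ht h hm => ?_, fun q o s t hs ht h hm => ?_⟩
  · exact (rG U k q).r_fam o hs ht h
  · exact (rX U k q).r_fam o hs ht h

end Vale.Agent.P216.H901
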