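import Vale.Agent.P216.MV337.Sys
import Vale.Agent.P216.H901.Apx

/-!
# The sweep homotopy of two close families of Moore-Lipschitz paths (P216, block [RHO])

`swp r σ τ w w' l`: first `w` is delayed by `r`; then `w'` up to the time `τ`, the short segment
from `w' τ` to `w σ` in time `r`, and `w` from the time `σ` on. It goes from `w` (`l = 0`) to
`w'` (`l = 1`) if the two paths are `r`-close along the time changes `σ`, `τ`.
-/

set_option linter.unusedVariables false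

open Set Filter Topology BoundedContinuousFunction

namespace Vale.Agent.P216.H901

open Vale.Agent.P216.PS Vale.Agent.P216.MV337
open Vale.Agent.P216.AS (IsMap IsHtpy)

/-- Two time changes, `[0, 1] → [0, s]` and `[0, 1] → [0, s']`. -/
structure Ret (s s' : ℝ) (σ τ : ℝ → ℝ) : Prop where
  σ_cont : ContinuousOn σ (Icc 0 1)
  τ_cont : ContinuousOn τ (Icc 0 1)
  σ0 : σ 0 = 0
  τ0 : τ 0 = 0
  σ1 : σ 1 = s
  τ1 : τ 1 = s'
  σ_mem : ∀ l ∈ Icc (0 : ℝ) 1, σ l ∈ Icc 0 s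
  τ_mem : ∀ l ∈ Icc (0 : ℝ) 1, τ l ∈ Icc 0 s'

section

variable {M : Type*} [MetricSpace M] {ρ r s s' : ℝ} {σ τ : ℝ → ℝ} {w w' : ℝ →ᵇ M} {a b : M}

theorem Ret.s0 (h : Ret s s' σ τ) : 0 ≤ s := by
  have := h.σ_mem 1 ⟨zero_le_one, le_rfl⟩
  exact this.1.trans this.2

theorem Ret.s'0 (h : Ret s s' σ τ) : 0 ≤ s' := by
  have := h.τ_mem 1 ⟨zero_le_one, le_rfl⟩
  exact this.1.trans this.2

theorem Ret.symm (h : Ret s s' σ τ) : Ret s' s τ σ :=
  ⟨h.τ_cont, h.σ_cont, h.τ0, h.σ0, h.τ1, h.σ1, h.τ_mem, h.σ_mem⟩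

/-- The delayed path. -/
noncomputable def dly (c : ℝ) (w : ℝ →ᵇ M) : ℝ →ᵇ M :=
  w.compContinuous ⟨fun u => u - c, by fun_prop⟩

@[simp] theorem dly_apply (c : ℝ) (w : ℝ →ᵇ M) (u : ℝ) : dly c w u = w (u - c) := rfl

theorem dly_zero (w : ℝ →ᵇ M) : dly 0 w = w := by
  ext u
  rw [dly_apply, sub_zero]

theorem dly_mem {c : ℝ} (hc : 0 ≤ c) (hw : w ∈ P a b s) : dly c w ∈ P a b (s + c) :=
  ⟨fun u v => by
    rw [dly_apply, dly_apply]
    refine (hw.1 _ _).trans (le_of_eq ?_)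
    congr 1
    ring, fun u hu => by
    rw [dly_apply]
    exact hw.2.1 _ (by linarith), fun u hu => by
    rw [dly_apply]
    exact hw.2.2 _ (by linarith)⟩

end

section Compact

variable {M : Type*} [MetricSpace M] [CompactSpace M] {ρ r s s' : ℝ} {σ τ : ℝ → ℝ}
  {w w' : ℝ →ᵇ M} {a b : M}

/-- **The sweep.** -/
noncomputable def swp (r : ℝ) (σ τ : ℝ → ℝ) (w w' : ℝ →ᵇ M) (l : ℝ) : ℝ →ᵇ M :=
  if 2 * l ≤ 1 then dly (min 1 (2 * l) * r) w
  else splice r w' w (τ (max 0 (2 * l - 1))) (σ (max 0 (2 * l - 1)))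

theorem swp_zero : swp r σ τ w w' 0 = w := by
  unfold swp
  rw [mul_zero, if_pos zero_le_one, min_eq_right zero_le_one, zero_mul, dly_zero]

/-- The paths are `r`-close along the time changes. -/
def Cls (r : ℝ) (σ τ : ℝ → ℝ) (w w' : ℝ →ᵇ M) : Prop :=
  ∀ l ∈ Icc (0 : ℝ) 1, dist (w' (τ l)) (w (σ l)) ≤ r

theorem sw_aux {l : ℝ} (hl : l ∈ Icc (0 : ℝ) 1) : max 0 (2 * l - 1) ∈ Icc (0 : ℝ) 1 :=
  ⟨le_max_left _ _, max_le zero_le_one (by linarith [hl.2])⟩

theorem swp_one (hU : LS.UniqSeg M ρ) (hr : 0 < r) (hrρ : r < ρ) (h : Ret s s' σ τ)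
    (hw : w ∈ P a b s) (hw' : w' ∈ P a b s') : swp r σ τ w w' 1 = w' := by
  unfold swp
  have e : max 0 (2 * (1 : ℝ) - 1) = 1 := by norm_num
  rw [if_neg (by norm_num), e, h.τ1, h.σ1]
  have hd : dist (w' s') (w s) ≤ r := by
    rw [eq_right hw' le_rfl, eq_right hw le_rfl, dist_self]
    exact hr.le
  ext u
  rw [splice_apply hU hr hrρ hw'.1 hw.1 hd]
  rcases le_total u s' with h1 | h1
  · rw [spl_left h1]
  rcases le_total u (s' + r) with h2 | h2
  · rw [spl_mid h1 h2, eq_right hw' le_rfl, eq_right hw le_rfl, LS.seg_self, eq_right hw' h1]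
  · rw [spl_right hr h2, eq_right hw (by linarith), eq_right hw' h1]

theorem swp_mem (hU : LS.UniqSeg M ρ) (hr : 0 < r) (hrρ : r < ρ) (h : Ret s s' σ τ)
    (hw : w ∈ P a b s) (hw' : w' ∈ P a b s') (hc : Cls r σ τ w w') {l : ℝ}
    (hl : l ∈ Icc (0 : ℝ) 1) : swp r σ τ w w' l ∈ P a b (s + s' + r) := by
  have hs := h.s0
  have hs' := h.s'0
  unfold swp
  split_ifs with h1
  · have h2 : 0 ≤ min 1 (2 * l) := le_min zero_le_one (by linarith [hl.1])
    refine P_mono ?_ (dly_mem (mul_nonneg h2 hr.le) hw)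
    have : min 1 (2 * l) * r ≤ r := mul_le_of_le_one_left hr.le (min_le_left _ _)
    linarith
  · have h2 := sw_aux hl
    refine P_mono ?_ (splice_mem (t := s) hU hr hrρ hw'.1 hw.1 (hc _ h2) (h.τ_mem _ h2).1
      (h.σ_mem _ h2).2 hw'.2.1 hw.2.2)
    linarith [(h.τ_mem _ h2).2, (h.σ_mem _ h2).1]

/-- In the middle both formulas agree. -/
theorem swp_mid (hU : LS.UniqSeg M ρ) (hr : 0 < r) (hrρ : r < ρ) (hσ0 : σ 0 = 0) (hτ0 : τ 0 = 0)
    (hw : w ∈ P a b s) (hw' : w' ∈ P a b s') :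
    dly (1 * r) w = splice r w' w (τ 0) (σ 0) := by
  rw [hτ0, hσ0, one_mul]
  have hd : dist (w' 0) (w 0) ≤ r := by
    rw [eq_left hw' le_rfl, eq_left hw le_rfl, dist_self]
    exact hr.le
  ext u
  rw [splice_apply hU hr hrρ hw'.1 hw.1 hd, dly_apply]
  rcases le_total u 0 with h1 | h1
  · rw [spl_left h1, eq_left hw (by linarith), eq_left hw' h1]
  rcases le_total u (0 + r) with h2 | h2
  · rw [spl_mid h1 h2, eq_left hw' le_rfl, eq_left hw le_rfl, LS.seg_self,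
      eq_left hw (by linarith)]
  · rw [spl_right hr h2]
    congr 1
    ring

/-- **Continuity of the sweep.** -/
theorem swp_cont {T : Type*} [TopologicalSpace T] {S : Set T} (hU : LS.UniqSeg M ρ) (hr : 0 < r)
    (hrρ : r < ρ) (h : Ret s s' σ τ) {F F' : T → ℝ →ᵇ M} {a b : T → M} {l : T → ℝ}
    (hF : ContinuousOn F S) (hF' : ContinuousOn F' S) (hl : ContinuousOn l S)
    (hlm : ∀ x ∈ S, l x ∈ Icc (0 : ℝ) 1) (hm : ∀ x ∈ S, F x ∈ P (a x) (b x) s)
    (hm' : ∀ x ∈ S, F' x ∈ P (a x) (b x) s') (hc : ∀ x ∈ S, Cls r σ τ (F x) (F' x)) :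
    ContinuousOn (fun x => swp r σ τ (F x) (F' x) (l x)) S := by
  have hs := h.s0
  have hs' := h.s'0
  refine continuousOn_of_eval (t := s + s' + r) (by linarith)
    (fun x hx => P_subset_PP (swp_mem hU hr hrρ h (hm x hx) (hm' x hx) (hc x hx) (hlm x hx)))
    fun u => ?_
  have e : ∀ x ∈ S, swp r σ τ (F x) (F' x) (l x) u =
      if 2 * l x ≤ 1 then F x (u - min 1 (2 * l x) * r)
      else spl r (F' x) (F x) (τ (max 0 (2 * l x - 1))) (σ (max 0 (2 * l x - 1))) u := by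
    intro x hx
    unfold swp
    split_ifs
    · rfl
    · exact splice_apply hU hr hrρ (hm' x hx).1 (hm x hx).1 (hc x hx _ (sw_aux (hlm x hx))) u
  refine ContinuousOn.congr ?_ e
  have hl2 : ContinuousOn (fun x => max 0 (2 * l x - 1)) S :=
    continuousOn_const.sup ((continuousOn_const.mul hl).sub continuousOn_const)
  have hlm2 : MapsTo (fun x => max 0 (2 * l x - 1)) S (Icc (0 : ℝ) 1) := fun x hx =>
    sw_aux (hlm x hx)
  refine PS.ContinuousOn.if_le' ?_ ?_ (continuousOn_const.mul hl) continuousOn_const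
    fun x hx hx2 => ?_
  · exact continuousOn_eval hF (continuousOn_const.sub
      ((continuousOn_const.inf (continuousOn_const.mul hl)).mul continuousOn_const))
  · exact continuousOn_spl hU hr hrρ hF' hF (h.τ_cont.comp hl2 hlm2) (h.σ_cont.comp hl2 hlm2)
      (fun x hx => hc x hx _ (hlm2 hx)) u
  · have h1 := swp_mid (w := F x) (w' := F' x) hU hr hrρ h.σ0 h.τ0 (hm x hx) (hm' x hx)
    have h2 := congrFun (congrArg DFunLike.coe h1) u
    rw [dly_apply, h.τ0, h.σ0] at h2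
    have hd : dist (F' x 0) (F x 0) ≤ r := by
      rw [eq_left (hm' x hx) le_rfl, eq_left (hm x hx) le_rfl, dist_self]
      exact hr.le
    rw [splice_apply hU hr hrρ (hm' x hx).1 (hm x hx).1 hd] at h2
    rw [hx2, min_self, sub_self, max_self, h.τ0, h.σ0]
    exact h2

end Compact

section Hp

variable {M : Type} [MetricSpace M] [CompactSpace M] {ρ r s s' : ℝ} {σ τ : ℝ → ℝ}
  {E : Type} [PseudoMetricSpace E]

/-- **Close families are homotopic.** -/
theorem hp_sweep {A A' : Set E} {B B' : Set (ℝ →ᵇ M)} (hU : LS.UniqSeg M ρ) (hr : 0 < r)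
    (hrρ : r < ρ) (hA : IsCompact A) (hA' : A' ⊆ A) (h : Ret s s' σ τ) {F F' : E → ℝ →ᵇ M}
    {a b : E → M} (hF : ContinuousOn F A) (hF' : ContinuousOn F' A)
    (hm : ∀ x ∈ A, F x ∈ P (a x) (b x) s) (hm' : ∀ x ∈ A, F' x ∈ P (a x) (b x) s')
    (hc : ∀ x ∈ A, Cls r σ τ (F x) (F' x))
    (hB : ∀ x ∈ A, P (a x) (b x) (s + s' + r) ⊆ B)
    (hB' : ∀ x ∈ A', P (a x) (b x) (s + s' + r) ⊆ B') : Hp A A' B B' F F' := by
  refine hp_of_cont hA (F := fun p => swp r σ τ (F p.2) (F' p.2) p.1) ?_ ?_ ?_ ?_ ?_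
  · exact swp_cont (a := fun p : ℝ × E => a p.2) (b := fun p : ℝ × E => b p.2) hU hr hrρ h
      (hF.comp continuousOn_snd fun p hp => hp.2) (hF'.comp continuousOn_snd fun p hp => hp.2)
      continuousOn_fst (fun p hp => hp.1) (fun p hp => hm _ hp.2) (fun p hp => hm' _ hp.2)
      fun p hp => hc _ hp.2
  · exact fun l hl x hx => hB x hx (swp_mem hU hr hrρ h (hm x hx) (hm' x hx) (hc x hx) hl)
  · exact fun l hl x hx => hB' x hx (swp_mem hU hr hrρ h (hm x (hA' hx)) (hm' x (hA' hx))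
      (hc x (hA' hx)) hl)
  · exact fun x hx => swp_zero
  · exact fun x hx => swp_one hU hr hrρ h (hm x hx) (hm' x hx)

end Hp

end Vale.Agent.P216.H901
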