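import Vale.Agent.P216.H754B.Gen

/-!
# Level changing operators, and signs of the global classes (P216, block [RHO])

`ShOp A φ`: a natural operator `A (t) → A (s)`, `t ≥ φ s`. It acts on compatible families.
`rec_sign`: the recursion for the classes `om j`. `WangF`: operators (on the families) of the Wang
data, with a scalar `d` on the cell; `WangF.cf`, `WangF.x`, `WangF.y`: the signs.
-/

set_option linter.unusedVariables false

namespace Vale.Agent.P216.H901

open Vale.Agent.P216.H754B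

variable {k : Type} [Field k]

/-- A natural operator from the level `t ≥ φ s` to the level `s`. -/
structure ShOp (A : PM k) (φ : ℝ → ℝ) where
  r : ∀ s t, 0 < s → 0 < t → φ s ≤ t → A.V t →ₗ[k] A.V s
  nat : ∀ s t s' t' (hs : 0 < s) (ht : 0 < t) (hs' : 0 < s') (ht' : 0 < t') (h : φ s ≤ t)
    (h' : φ s' ≤ t') (h₁ : s' ≤ s) (h₂ : t ≤ t') x,
    A.ρ s' s hs' h₁ (r s t hs ht h (A.ρ t t' ht h₂ x)) = r s' t' hs' ht' h' x

namespace ShOp

variable {A : PM k} {φ : ℝ → ℝ} (O : ShOp A φ)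

theorem r_ρ {s t t' : ℝ} (hs : 0 < s) (ht : 0 < t) (ht' : 0 < t') (h : φ s ≤ t) (h' : φ s ≤ t')
    (h₂ : t ≤ t') (x : A.V t') : O.r s t hs ht h (A.ρ t t' ht h₂ x) = O.r s t' hs ht' h' x := by
  have := O.nat s t s t' hs ht hs ht' h h' le_rfl h₂ x
  rwa [A.ρ_refl] at this

/-- The value on a family does not depend on the level. -/
theorem r_eq (o : A.Fam) {s t t' : ℝ} (hs : 0 < s) (ht : 0 < t) (ht' : 0 < t') (h : φ s ≤ t)
    (h' : φ s ≤ t') : O.r s t hs ht h (o.z t ht) = O.r s t' hs ht' h' (o.z t' ht') := by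
  have hM : 0 < max t t' := lt_max_of_lt_left ht
  rw [← o.comp t (max t t') ht (le_max_left _ _), ← o.comp t' (max t t') ht' (le_max_right _ _),
    O.r_ρ hs ht hM h (h.trans (le_max_left _ _)) (le_max_left _ _),
    O.r_ρ hs ht' hM h' (h.trans (le_max_left _ _)) (le_max_right _ _)]

/-- The action on the families. -/
def fam (o : A.Fam) : A.Fam where
  z s hs := O.r s (max (φ s) 1) hs (lt_max_of_lt_right one_pos) (le_max_left _ _) (o.z _ _)
  comp s t hs h := by
    have ht : 0 < t := hs.trans_le h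
    have hM : 0 < max (max (φ t) 1) (φ s) := lt_max_of_lt_left (lt_max_of_lt_right one_pos)
    have h1 : φ t ≤ max (max (φ t) 1) (φ s) := (le_max_left _ _).trans (le_max_left _ _)
    rw [O.r_eq o ht _ hM _ h1, O.r_eq o hs _ hM _ (le_max_right _ _)]
    have := O.nat t (max (max (φ t) 1) (φ s)) s (max (max (φ t) 1) (φ s)) ht hM hs hM h1
      (le_max_right _ _) h le_rfl (o.z _ hM)
    rwa [A.ρ_refl] at this

theorem r_fam (o : A.Fam) {s t : ℝ} (hs : 0 < s) (ht : 0 < t) (h : φ s ≤ t) :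
    O.r s t hs ht h (o.z t ht) = (O.fam o).z s hs := O.r_eq o hs ht _ h _

end ShOp

/-- A homogeneous operator on the families. -/
structure FOp (A : PM k) where
  f : A.Fam → A.Fam
  smul : ∀ (a : k) (o o' : A.Fam), (∀ t ht, o'.z t ht = a • o.z t ht) →
    ∀ t ht, (f o').z t ht = a • (f o).z t ht

/-- Level changing operators act on the families. -/
def ShOp.fop {A : PM k} {φ : ℝ → ℝ} (O : ShOp A φ) : FOp A where
  f := O.fam
  smul a o o' h t ht := by
    change O.r _ _ _ _ _ (o'.z _ _) = a • O.r _ _ _ _ _ (o.z _ _)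
    rw [h, map_smul]

/-- Operators act on the families. -/
def pmFop {A : PM k} (O : PMOp A) : FOp A where
  f := O.fam
  smul a o o' h t ht := by
    change O.r _ _ (o'.z _ _) = a • O.r _ _ (o.z _ _)
    rw [h, map_smul]

theorem FOp.congr {A : PM k} (O : FOp A) {o o' : A.Fam} (h : ∀ t ht, o'.z t ht = o.z t ht) (t ht) :
    (O.f o').z t ht = (O.f o).z t ht := by
  have := O.smul 1 o o' (fun t ht => by rw [one_smul, h]) t ht
  rwa [one_smul] at this

section Rec

variable {m : ℕ} {G : ℕ → PM k} {B C B0 : ℝ}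

theorem Based.canc (b : Based m G B C B0) (j : ℕ) (x y : k)
    (h : ∀ t ht, x • (b.om j).z t ht = y • (b.om j).z t ht) : x = y := by
  obtain ⟨T, hT⟩ := exists_om_ne b j
  have hp : 0 < max T 1 := lt_max_of_lt_right one_pos
  have h1 := h _ hp
  rw [← sub_eq_zero, ← sub_smul, smul_eq_zero, sub_eq_zero] at h1
  exact h1.resolve_right (hT _ _ (le_max_left _ _))

/-- **The recursion for the classes `om j`**: if `L om (j+1) = lam (j+1) om j`, `lam (j+1) ≠ 0`, and
`L ρ = d ρ L` on these classes, then `ρ om j = d ^ j om j`. -/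
theorem rec_sign (b : Based m G B C B0) (hB : 0 ≤ B) {a : ℝ} (ha : 0 ≤ a) (d : k)
    (ρ : ∀ j, FOp (G (m * j)))
    (L : ∀ j t, 0 < t → (G (m * (j + 1))).V (t + a) →ₗ[k] (G (m * j)).V t)
    (lam : ℕ → k) (hlam : ∀ j, lam (j + 1) ≠ 0)
    (hL : ∀ j t ht ht', L j t ht ((b.om (j + 1)).z (t + a) ht') = lam (j + 1) • (b.om j).z t ht)
    (h0 : ∀ t ht, ((ρ 0).f (b.om 0)).z t ht = (b.om 0).z t ht)
    (hρ : ∀ j t ht ht', L j t ht (((ρ (j + 1)).f (b.om (j + 1))).z (t + a) ht') =
      (d * lam (j + 1)) • ((ρ j).f (b.om j)).z t ht) (j : ℕ) (t : ℝ) (ht : 0 < t) :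
    ((ρ j).f (b.om j)).z t ht = d ^ j • (b.om j).z t ht := by
  induction j generalizing t with
  | zero => rw [h0, pow_zero, one_smul]
  | succ j ih =>
    obtain ⟨e, he⟩ := (b.line (j + 1)).fam hB ((ρ (j + 1)).f (b.om (j + 1)))
    have h1 : e * lam (j + 1) = d * lam (j + 1) * d ^ j := by
      refine b.canc j _ _ fun t ht => ?_
      have ht' : 0 < t + a := by linarith
      have h2 := hρ j t ht ht'
      rw [he, map_smul, hL, smul_smul, ih, smul_smul] at h2
      exact h2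
    have h2 : e = d ^ (j + 1) := mul_right_cancel₀ (hlam j) (by rw [h1, pow_succ]; ring)
    rw [he, h2]

end Rec

/-! ### Operators on the families of the Wang data -/

/-- The opposite of a family operator, or any multiple. -/
def PM.Fam.smul {A : PM k} (a : k) (o : A.Fam) : A.Fam where
  z t ht := a • o.z t ht
  comp s t hs h := by rw [map_smul, o.comp]

section Wang

variable {m : ℕ} {G X : ℕ → PM k} {B C B0 c B' : ℝ}

/-- **Operators on the families of the Wang data**, with the scalar `d` on the cell. -/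
structure WangF (w : Wang m G X c) (d : k) where
  OG : ∀ q, FOp (G q)
  OX : ∀ q, FOp (X q)
  OP : ∀ q, FOp (w.P q)
  OQ : ∀ q, FOp (w.Q q)
  α : ∀ q (x : (w.P q).Fam) t ht, w.α q t ht (((OP q).f x).z t ht) =
    ((OX q).f (x.map (fun t ht => w.α q t ht) (w.α_nat q))).z t ht
  β : ∀ q (x : (X q).Fam) t ht, w.β q t ht (((OX q).f x).z t ht) =
    ((OQ q).f (x.map (fun t ht => w.β q t ht) (w.β_nat q))).z t ht
  δ : ∀ q (x : (w.Q q).Fam) t ht, w.δ q t ht (((OQ q).f x).z t ht) =
    ((OP (q + 1)).f (x.map (fun t ht => w.δ q t ht) (w.δ_nat q))).z t ht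
  iQ : ∀ q (x : (w.Q q).Fam) t ht, ((w.iQ q).fFam w.c0 ((OQ q).f x)).z t ht =
    ((OG q).f ((w.iQ q).fFam w.c0 x)).z t ht
  iP : ∀ q (x : (w.P (q + (m + 1))).Fam) t ht, ((w.iP q).fFam w.c0 ((OP (q + (m + 1))).f x)).z t ht =
    d • ((OG q).f ((w.iP q).fFam w.c0 x)).z t ht

theorem fFam_fFam_symm {A A' : PM k} (I : Intl A A' c) (hc : 0 ≤ c) (o : A'.Fam) (t : ℝ)
    (ht : 0 < t) : (I.fFam hc (I.symm.fFam hc o)).z t ht = o.z t ht :=
  I.f_f_fam hc o ht (by linarith) le_rfl

/-- The operators commute with the inverse interleaving. -/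
theorem intl_g_of_f {A A' : PM k} (I : Intl A A' c) (hc : 0 ≤ c) (OA : FOp A) (OA' : FOp A') (d : k)
    (h : ∀ (x : A.Fam) t ht, (I.fFam hc (OA.f x)).z t ht = d • (OA'.f (I.fFam hc x)).z t ht)
    (o : A'.Fam) (t : ℝ) (ht : 0 < t) :
    (OA.f (I.symm.fFam hc o)).z t ht = d • (I.symm.fFam hc (OA'.f o)).z t ht := by
  have h1 := fFam_fFam_symm I.symm hc (OA.f (I.symm.fFam hc o)) t ht
  rw [← h1]
  have h2 : ∀ t ht, (I.fFam hc (OA.f (I.symm.fFam hc o))).z t ht = d • (OA'.f o).z t ht := by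
    intro t ht
    rw [h]
    congr 1
    exact OA'.congr (fun t ht => fFam_fFam_symm I hc o t ht) t ht
  change I.g t (t + c) ht le_rfl ((I.fFam hc (OA.f (I.symm.fFam hc o))).z (t + c) _) = _
  rw [h2, map_smul]
  rfl

namespace WangF

variable {w : Wang m G X c} {b : Based m G B C B0} {d : k} (W : WangF w d) (F : Free w b B')
  {ε : ℕ → k} (hε : ∀ j t ht, ((W.OG (m * j)).f (b.om j)).z t ht = ε j • (b.om j).z t ht)

include W hε in
/-- The operator on `y j`. -/
theorem y (j : ℕ) (t : ℝ) (ht : 0 < t) :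
    ((W.OX (m * j + (m + 1))).f (F.y j)).z t ht = (d * ε j) • (F.y j).z t ht := by
  have hc := w.c0
  have e1 : ∀ t ht, (F.y j).z t ht =
      ((w.κP b j).map (fun t ht => w.α _ t ht) (w.α_nat _)).z t ht := by
    intro t ht
    rw [F.y_def j t (t + c) ht (by linarith) le_rfl, w.κP_eq b j ht (by linarith) le_rfl]
    rfl
  have e2 := intl_g_of_f (w.iP (m * j)) hc (W.OP _) (W.OG _) d (W.iP (m * j)) (b.om j) t ht
  rw [(W.OX _).congr e1, ← W.α, e1]
  change w.α _ t ht (((W.OP (m * j + (m + 1))).f ((w.iP (m * j)).symm.fFam w.c0 (b.om j))).z t ht) =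
    (d * ε j) • w.α _ t ht (((w.iP (m * j)).symm.fFam w.c0 (b.om j)).z t ht)
  rw [e2]
  have e3 : ((w.iP (m * j)).symm.fFam w.c0 ((W.OG (m * j)).f (b.om j))).z t ht =
      ε j • ((w.iP (m * j)).symm.fFam w.c0 (b.om j)).z t ht := by
    change (w.iP (m * j)).g t (t + c) ht le_rfl (((W.OG (m * j)).f (b.om j)).z (t + c) _) = _
    rw [hε, map_smul]
    rfl
  rw [e3, map_smul, map_smul, smul_smul]

include W hε in
/-- The signs along nonzero structure constants. -/
theorem cf (j : ℕ) (hj : F.cf (j + 1) ≠ 0) : ε (j + 1) = d * ε j := by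
  have hc := w.c0
  -- `th` on families
  have h1 : ∀ t ht, ((w.iP (m * j)).fFam w.c0 (w.dκ' b j)).z t ht =
      F.cf (j + 1) • (b.om j).z t ht := by
    intro t ht
    have := F.th j t (t + c) (t + c + c) ht (by linarith) (by linarith) le_rfl le_rfl
    rw [w.κ_eq b (j + 1) (by linarith) (by linarith) le_rfl] at this
    exact this
  -- the operator on `κ (j + 1)`
  have h2 : ∀ t ht, ((W.OQ (m * (j + 1))).f (w.κ b (j + 1))).z t ht =
      ε (j + 1) • (w.κ b (j + 1)).z t ht := by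
    intro t ht
    have e2 := intl_g_of_f (w.iQ (m * (j + 1))) hc (W.OQ _) (W.OG _) 1
      (fun x t ht => by rw [one_smul]; exact W.iQ _ x t ht) (b.om (j + 1)) t ht
    rw [one_smul] at e2
    refine e2.trans ?_
    change (w.iQ (m * (j + 1))).g t (t + c) ht le_rfl
      (((W.OG (m * (j + 1))).f (b.om (j + 1))).z (t + c) _) = _
    rw [hε, map_smul]
    rfl
  -- the operator on `δ (κ (j + 1))`
  have h3 : ∀ t ht, ((W.OP (m * j + (m + 1))).f (w.dκ' b j)).z t ht =
      ε (j + 1) • (w.dκ' b j).z t ht := by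
    intro t ht
    have e := W.δ (m * (j + 1)) (w.κ b (j + 1)) t ht
    rw [h2, map_smul] at e
    exact e.symm
  refine b.canc j _ _ fun t ht => ?_
  have h4 := W.iP (m * j) (w.dκ' b j) t ht
  have h5 : ((w.iP (m * j)).fFam w.c0 ((W.OP (m * j + (m + 1))).f (w.dκ' b j))).z t ht =
      ε (j + 1) • ((w.iP (m * j)).fFam w.c0 (w.dκ' b j)).z t ht := by
    change (w.iP (m * j)).f t (t + c) ht le_rfl
      (((W.OP (m * j + (m + 1))).f (w.dκ' b j)).z (t + c) _) = _
    rw [h3, map_smul]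
    rfl
  have h6 : ((W.OG (m * j)).f ((w.iP (m * j)).fFam w.c0 (w.dκ' b j))).z t ht =
      F.cf (j + 1) • ((W.OG (m * j)).f (b.om j)).z t ht :=
    (W.OG (m * j)).smul _ _ _ h1 t ht
  rw [h5, h1, h6, hε, smul_smul, smul_smul, smul_smul] at h4
  have h7 : (F.cf (j + 1)) • (ε (j + 1) • (b.om j).z t ht) =
      (F.cf (j + 1)) • ((d * ε j) • (b.om j).z t ht) := by
    rw [smul_smul, smul_smul, mul_comm (F.cf (j + 1)), h4]
    congr 1
    ring
  exact smul_right_injective _ hj h7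

include W hε in
/-- The operator on `x j`. -/
theorem x (hB' : 0 ≤ B') (j : ℕ) (t : ℝ) (ht : 0 < t) :
    ((W.OX (m * j)).f (F.x j)).z t ht = ε j • (F.x j).z t ht := by
  have hc := w.c0
  by_cases hj : F.cf j = 0
  · obtain ⟨a, ha⟩ := (F.line_x j).fam hB' ((W.OX (m * j)).f (F.x j))
    have e1 : ∀ t ht, ((w.iQ (m * j)).fFam w.c0 ((F.x j).map (fun t ht => w.β _ t ht)
        (w.β_nat _))).z t ht = (b.om j).z t ht := fun t ht =>
      F.x_om j hj t (t + c) ht (by linarith) le_rfl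
    have e2 : ∀ t ht, a • (b.om j).z t ht = ε j • (b.om j).z t ht := by
      intro t ht
      have e3 := W.iQ (m * j) ((F.x j).map (fun t ht => w.β _ t ht) (w.β_nat _)) t ht
      rw [(W.OG (m * j)).congr e1, hε] at e3
      rw [← e3, ← e1]
      change _ = (w.iQ (m * j)).f t (t + c) ht le_rfl (((W.OQ (m * j)).f _).z (t + c) _)
      rw [← W.β, ha, map_smul, map_smul]
      rfl
    rw [ha, b.canc j _ _ e2]
  · have h0 : ∀ t ht, (F.x j).z t ht = (0 : k) • (F.x j).z t ht := fun t ht => by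
      rw [F.x_zero j hj t ht, smul_zero]
    rw [(W.OX (m * j)).smul 0 (F.x j) (F.x j) h0 t ht, F.x_zero j hj t ht, smul_zero, zero_smul]

end WangF

end Wang

end Vale.Agent.P216.H901
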