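import Vale.Agent.P216.H901.WangPull
import Vale.Agent.P216.H754B.Rev
import Vale.Agent.P216.H754B.Gen

/-!
# Natural operators on the Wang data of a trivialisation (P216)
-/

set_option linter.unusedVariables false

open Set

namespace Vale.Agent.P216.H901

open Vale.Agent.P216.AS Vale.Agent.P216.H83
open Vale.Agent.P216.H754B (SpOp PMOp IntlOp WangOp)

variable {k : Type} [Field k]

section Gen

variable {E E' : Type} [PseudoMetricSpace E] [PseudoMetricSpace E']

/-- The operator of a natural family of self maps. -/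
noncomputable def _root_.Vale.Agent.P216.H754B.SpOp.pm {A A' : ℝ → Set E} (R : SpOp A A') (k : Type) [Field k] (hA : Mono A)
    (hA' : Mono A') (hAA : ∀ t, A' t ⊆ A t) (q : ℕ) : PMOp (PMr k A A' hA hA' q) where
  r t ht := pullR (on k) (R.map t ht) (hAA t) (R.sub t ht) q
  nat s t hs h ht x := by
    have m1 : IsMap (tr E) (tr E) (A s) (A t) (R.r t) :=
      (R.map t ht).mono (hA s t hs h) fun x hx => (R.map t ht).mapsX (hA s t hs h hx)
    have s1 : MapsTo (R.r t) (A' s) (A' t) := fun x hx => R.sub t ht (hA' s t hs h hx)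
    have m2 : IsMap (tr E) (tr E) (A s) (A t) (R.r s) :=
      IsMap.toSub (R.map s hs) (hA s t hs h)
    have s2 : MapsTo (R.r s) (A' s) (A' t) := fun x hx => hA' s t hs h (R.sub s hs hx)
    have e1 : (PMr k A A' hA hA' q).ρ s t hs h
        (pullR (on k) (R.map t ht) (hAA t) (R.sub t ht) q x) =
        pullR (on k) m1 (hAA s) s1 q x := by
      obtain ⟨y, hy, rfl⟩ := H.exists_mk x
      rfl
    have e2 : pullR (on k) (R.map s hs) (hAA s) (R.sub s hs) q
        ((PMr k A A' hA hA' q).ρ s t hs h x) = pullR (on k) m2 (hAA s) s2 q x := by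
      obtain ⟨y, hy, rfl⟩ := H.exists_mk x
      rfl
    exact e1.trans ((LinearMap.congr_fun ((R.nat s t hs h).pullR_eq (k := k) (hAA s) m2 s2 m1 s1
      q) x).symm.trans e2.symm)

/-- The operator of a natural family of self maps, absolute cohomology. -/
noncomputable def _root_.Vale.Agent.P216.H754B.SpOp.pma {A : ℝ → Set E} (R : SpOp A (fun _ => ∅)) (k : Type) [Field k]
    (hA : Mono A) (q : ℕ) : PMOp (PMa k A hA q) where
  r t ht := pull (on k) (R.map t ht) q
  nat s t hs h ht x := by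
    have e := (SpOp.pm R k hA mono_empty (fun t => empty_subset _) q).nat s t hs h ht
      (absE k (A t) q x)
    have e1 : (PMr k A (fun _ => ∅) hA mono_empty q).ρ s t hs h
        ((SpOp.pm R k hA mono_empty (fun t => empty_subset _) q).r t ht (absE k (A t) q x)) =
        absE k (A s) q ((PMa k A hA q).ρ s t hs h (pull (on k) (R.map t ht) q x)) := by
      obtain ⟨y, hy, rfl⟩ := H.exists_mk x
      rfl
    have e2 : (SpOp.pm R k hA mono_empty (fun t => empty_subset _) q).r s hs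
        ((PMr k A (fun _ => ∅) hA mono_empty q).ρ s t hs h (absE k (A t) q x)) =
        absE k (A s) q (pull (on k) (R.map s hs) q ((PMa k A hA q).ρ s t hs h x)) := by
      obtain ⟨y, hy, rfl⟩ := H.exists_mk x
      rfl
    exact (absE k (A s) q).injective (e1.symm.trans (e.trans e2))

/-- Interleavings of spaces commute with the operators, if one of the maps does. -/
theorem SpIntl.intlOp {A A' : ℝ → Set E} {B B' : ℝ → Set E'} {c : ℝ} (S : SpIntl A A' B B' c)
    (RA : SpOp A A') (RB : SpOp B B') (k : Type) [Field k]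
    (hA : Mono A) (hA' : Mono A') (hB : Mono B)
    (hB' : Mono B') (hAA : ∀ t, A' t ⊆ A t) (hBB : ∀ t, B' t ⊆ B t) (hc : 0 ≤ c) (q : ℕ)
    (h : ∀ t, 0 < t → Hp (A t) (A' t) (B (t + c)) (B' (t + c)) (S.f t ∘ RA.r t)
      (RB.r (t + c) ∘ S.f t)) :
    IntlOp (S.intl k hA hA' hB hB' hAA hBB hc q) (SpOp.pm RA k hA hA' hAA q)
      (SpOp.pm RB k hB hB' hBB q) := by
  refine IntlOp.of_g hc fun s hs ht x => ?_
  have m1 : IsMap (tr E) (tr E') (A s) (B (s + c)) (RB.r (s + c) ∘ S.f s) :=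
    (RB.map (s + c) ht).comp (S.f_map s hs)
  have s1 : MapsTo (RB.r (s + c) ∘ S.f s) (A' s) (B' (s + c)) :=
    (RB.sub (s + c) ht).comp (S.f_sub s hs)
  have m2 : IsMap (tr E) (tr E') (A s) (B (s + c)) (S.f s ∘ RA.r s) :=
    (S.f_map s hs).comp (RA.map s hs)
  have s2 : MapsTo (S.f s ∘ RA.r s) (A' s) (B' (s + c)) := (S.f_sub s hs).comp (RA.sub s hs)
  have e1 : (S.intl k hA hA' hB hB' hAA hBB hc q).g s (s + c) hs le_rfl
      ((SpOp.pm RB k hB hB' hBB q).r (s + c) ht x) = pullR (on k) m1 (hAA s) s1 q x := by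
    obtain ⟨y, hy, rfl⟩ := H.exists_mk x
    rfl
  have e2 : (SpOp.pm RA k hA hA' hAA q).r s hs
      ((S.intl k hA hA' hB hB' hAA hBB hc q).g s (s + c) hs le_rfl x) =
      pullR (on k) m2 (hAA s) s2 q x := by
    obtain ⟨y, hy, rfl⟩ := H.exists_mk x
    rfl
  exact e1.trans ((LinearMap.congr_fun ((h s hs).pullR_eq (k := k) (hAA s) m2 s2 m1 s1
    q) x).symm.trans e2.symm)

end Gen

section PMIso

/-- The isomorphism intertwines the operators. -/
def IsoOp {A A' : PM k} (I : PMIso A A') (O : PMOp A) (O' : PMOp A') : Prop :=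
  ∀ t ht x, I.e t ht (O.r t ht x) = O'.r t ht (I.e t ht x)

theorem IsoOp.symm {A A' : PM k} {I : PMIso A A'} {O : PMOp A} {O' : PMOp A'} (h : IsoOp I O O') :
    IsoOp I.symm O' O := fun t ht x => by
  change (I.e t ht).symm _ = O.r t ht ((I.e t ht).symm x)
  rw [LinearEquiv.symm_apply_eq, h, LinearEquiv.apply_symm_apply]

theorem isoOp_refl {A : PM k} (O : PMOp A) : IsoOp (isoRefl A) O O := fun _ _ _ => rfl

theorem PMIso.intlOp {A A' B B' : PM k} {c : ℝ} (I : PMIso A A') (J : PMIso B B') (hc : 0 ≤ c)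
    (K : Intl A' B' c) {OA : PMOp A} {OA' : PMOp A'} {OB : PMOp B} {OB' : PMOp B'}
    (hI : IsoOp I OA OA') (hJ : IsoOp J OB OB') (hK : IntlOp K OA' OB') :
    IntlOp (PMIso.intl I J hc K) OA OB where
  f o s t hs ht h := by
    change (J.e s hs).symm (K.f s t hs h (I.e t _ (OA.r t ht (o.z t ht)))) =
      OB.r s hs ((J.e s hs).symm (K.f s t hs h (I.e t _ (o.z t ht))))
    have e := hK.f (o.map (fun t ht => (I.e t ht).toLinearMap) (fun s t hs ht h x => I.nat s t hs ht h x)) s t hs ht h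
    change K.f s t hs h (OA'.r t ht (I.e t ht (o.z t ht))) = OB'.r s hs (K.f s t hs h (I.e t ht (o.z t ht))) at e
    rw [hI t ht, e]
    exact hJ.symm s hs _
  g o s t hs ht h := by
    change (I.e s hs).symm (K.g s t hs h (J.e t _ (OB.r t ht (o.z t ht)))) =
      OA.r s hs ((I.e s hs).symm (K.g s t hs h (J.e t _ (o.z t ht))))
    have e := hK.g (o.map (fun t ht => (J.e t ht).toLinearMap) (fun s t hs ht h x => J.nat s t hs ht h x)) s t hs ht h
    change K.g s t hs h (OB'.r t ht (J.e t ht (o.z t ht))) = OA'.r s hs (K.g s t hs h (J.e t ht (o.z t ht))) at e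
    rw [hJ t ht, e]
    exact hI.symm s hs _

end PMIso

/-! ### The operators on the Wang data -/

section Tr

variable {E E' M : Type} [MetricSpace E] [MetricSpace E'] [MetricSpace M] {ev : E → M}
  {X : ℝ → Set E} {Om : ℝ → Set E'} {c : ℝ} {m : ℕ}

/-- **An operator on a trivialisation**: self maps `r t` of `X t` which preserve the parts over
`D₋` and `D₊`, self maps of `Om t`, self maps of `Om t × (I^n, ∂I^n)`, compatible with the
trivialisations up to homotopy. -/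
structure TrivOp (T : Triv (m + 1) ev X Om c) where
  /-- on `X t` -/
  RX : SpOp X (fun _ => ∅)
  /-- on `(X t, X t over D₋)` -/
  RR : SpOp X (ovr ev X T.Dm)
  /-- on `X t over D₋` -/
  RQ : SpOp (ovr ev X T.Dm) (fun _ => ∅)
  /-- on `(X t over D₊, X t over D₊ ∩ D₋)` -/
  RP : SpOp (ovr ev X T.Dp) (ovr ev X (T.Dp ∩ T.Dm))
  /-- on `Om t` -/
  RO : SpOp Om (fun _ => ∅)
  /-- on `Om t × (I^n, ∂I^n)` -/
  RC : SpOp (fun t => cub (m + 1) (Om t)) (fun t => bdc (m + 1) (Om t))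
  eR : RR.r = RX.r
  eQ : RQ.r = RX.r
  eP : RP.r = RX.r
  tm : ∀ t, 0 < t → Hp (ovr ev X T.Dm t) ∅ (Om (t + c)) ∅ (T.tm.f t ∘ RQ.r t)
    (RO.r (t + c) ∘ T.tm.f t)
  tp : ∀ t, 0 < t → Hp (ovr ev X T.Dp t) (ovr ev X (T.Dp ∩ T.Dm) t) (cub (m + 1) (Om (t + c)))
    (bdc (m + 1) (Om (t + c))) (T.tp.f t ∘ RP.r t) (RC.r (t + c) ∘ T.tp.f t)

omit [MetricSpace E] [MetricSpace E'] in
theorem eqOn_cuM {Z : Set E} {f g : E → E'} (h : EqOn f g Z) :
    ∀ n, EqOn (cuM f n) (cuM g n) (cub n Z)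
  | 0 => h
  | n + 1 => fun x hx => Prod.ext (eqOn_cuM h n hx.1) rfl

omit [MetricSpace M] in
theorem isHtpy_cuM {Z : Set E} {Z' : Set E'} {D : ℝ → E → E'}
    (h : IsHtpy (tr E) (tr E') Z Z' D) :
    ∀ n, IsHtpy (tr (Cu E n)) (tr (Cu E' n)) (cub n Z) (cub n Z') fun l => cuM (D l) n
  | 0 => h
  | n + 1 => by
    have ih := isHtpy_cuM h n
    refine ⟨fun s hs x hx => ⟨ih.mapsX s hs hx.1, hx.2⟩, fun _ _ i => i.elim, fun ε hε => ?_⟩
    obtain ⟨δ, hδ, hu⟩ := ih.uc ε hε
    refine ⟨min δ ε, lt_min hδ hε, fun s hs t ht x hx y hy hst hxy => ?_⟩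
    have h1 : dist x.1 y.1 < min δ ε := lt_of_le_of_lt (le_max_left _ _) hxy
    have h2 : dist x.2 y.2 < min δ ε := lt_of_le_of_lt (le_max_right _ _) hxy
    exact max_lt (hu s hs t ht _ hx.1 _ hy.1 (hst.trans_le (min_le_left _ _))
      (h1.trans_le (min_le_left _ _))) (h2.trans_le (min_le_right _ _))

/-- Homotopic maps `f`, `g` give homotopic maps `f × id`, `g × id`. -/
theorem hp_cuM {A : Set E} {B : Set E'} {f g : E → E'} (h : Hp A ∅ B ∅ f g) (n : ℕ) :
    Hp (cub n A) (bdc n A) (cub n B) (bdc n B) (cuM f n) (cuM g n) := by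
  obtain ⟨D, hD, hD', h0, h1⟩ := h
  exact ⟨fun l => cuM (D l) n, isHtpy_cuM hD n, fun l hl => mapsTo_cuM_bdc (hD.mapsX l hl) n,
    eqOn_cuM h0 n, eqOn_cuM h1 n⟩

/-- The operator `RO × id` of `Om t × (I^n, ∂I^n)`. -/
def _root_.Vale.Agent.P216.H754B.SpOp.cu (R : SpOp Om (fun _ => ∅)) (n : ℕ) :
    SpOp (fun t => cub n (Om t)) (fun t => bdc n (Om t)) where
  r t := cuM (R.r t) n
  map t ht := isMap_cuM (R.map t ht) n
  sub t ht := mapsTo_cuM_bdc (R.map t ht).mapsX n
  nat s t hs h := hp_cuM (R.nat s t hs h) n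

variable (h2 : (2 : k) ≠ 0) (T : Triv (m + 1) ev X Om c)

/-- The operator commutes with the suspension, up to the scalar `d`. -/
def SusOp (h2 : (2 : k) ≠ 0) (RC : SpOp (fun t => cub (m + 1) (Om t)) (fun t => bdc (m + 1) (Om t)))
    (RO : SpOp Om (fun _ => ∅)) (d : k) : Prop :=
  ∀ q t (ht : 0 < t) (x : Hr (tr (Cu E' (m + 1))) (on k) (cub (m + 1) (Om t)) (bdc (m + 1) (Om t))
    (q + (m + 1))),
    susN h2 (Om t) q (m + 1) (pullR (on k) (RC.map t ht) (bdc_subset (m + 1) (Om t)) (RC.sub t ht)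
      (q + (m + 1)) x) =
    d • pullR (on k) (RO.map t ht) (empty_subset _) (RO.sub t ht) q (susN h2 (Om t) q (m + 1) x)

theorem susOp_cu (RO : SpOp Om (fun _ => ∅)) : SusOp (m := m) h2 (RO.cu (m + 1)) RO 1 :=
  fun q t ht x => (susN_pull h2 (RO.map t ht) (RO.sub t ht) q (m + 1)
    ((RO.cu (m + 1)).map t ht) ((RO.cu (m + 1)).sub t ht) x).trans (one_smul k _).symm

/-- `d • O`. -/
def _root_.Vale.Agent.P216.H754B.PMOp.smul {A : PM k} (d : k) (O : PMOp A) : PMOp A where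
  r t ht := d • O.r t ht
  nat s t hs h ht x := by
    rw [LinearMap.smul_apply, LinearMap.smul_apply, map_smul, O.nat]

omit [MetricSpace M] in
theorem pullR_fun {A A' : Set E} {B B' : Set E} {f g : E → E} (e : f = g)
    (hf : IsMap (tr E) (tr E) A B f) (hg : IsMap (tr E) (tr E) A B g) (hA : A' ⊆ A)
    (hf' : MapsTo f A' B') (hg' : MapsTo g A' B') (q : ℕ) :
    pullR (on k) hf hA hf' q = pullR (on k) hg hA hg' q := by
  subst e
  rfl

namespace TrivOp

variable {T : Triv (m + 1) ev X Om c} (O : TrivOp T)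

/-- The operators on the cohomology of the based loops. -/
noncomputable def OG (k : Type) [Field k] (q : ℕ) : PMOp (PMa k Om T.Om_mono q) :=
  O.RO.pma k T.Om_mono q

/-- The operators on the cohomology of the free loops. -/
noncomputable def OX (k : Type) [Field k] (q : ℕ) : PMOp (PMa k X T.X_mono q) :=
  O.RX.pma k T.X_mono q

/-- The operators on the relative groups. -/
noncomputable def OP (k : Type) [Field k] (q : ℕ) :
    PMOp (PMr k X (ovr ev X T.Dm) T.X_mono (mono_ovr T.X_mono _) q) :=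
  O.RR.pm k T.X_mono (mono_ovr T.X_mono _) (fun t => ovr_sub ev X T.Dm t) q

/-- The operators on the part over `D₋`. -/
noncomputable def OQ (k : Type) [Field k] (q : ℕ) :
    PMOp (PMr k (ovr ev X T.Dm) (fun _ => ∅) (mono_ovr T.X_mono _) mono_empty q) :=
  O.RQ.pm k (mono_ovr T.X_mono _) mono_empty (fun t => empty_subset _) q

theorem α_op (q : ℕ) (t : ℝ) (ht : 0 < t) (x : Hr (tr E) (on k) (X t) (ovr ev X T.Dm t) q) :
    (T.wang h2).α q t ht ((O.OP k q).r t ht x) = (O.OX k q).r t ht ((T.wang h2).α q t ht x) := by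
  have m1 : IsMap (tr E) (tr E) (X t) (X t) (O.RX.r t) := O.RX.map t ht
  have s1 : MapsTo (O.RX.r t) (ovr ev X T.Dm t) (ovr ev X T.Dm t) := by
    rw [← congrFun O.eR t]
    exact O.RR.sub t ht
  have e1 := LinearMap.congr_fun (pullR_fun (k := k) (congrFun O.eR t) (O.RR.map t ht) m1
    (ovr_sub ev X T.Dm t) (O.RR.sub t ht) s1 q) x
  have e2 := lesA_pull (k := k) m1 (ovr_sub ev X T.Dm t) s1 (O.RX.sub t ht) q x
  have e3 := absE_symm_pull (k := k) m1 (O.RX.sub t ht) q (lesA k (X t) (ovr ev X T.Dm t) q x)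
  change (absE k (X t) q).symm (lesA k (X t) (ovr ev X T.Dm t) q (pullR (on k) (O.RR.map t ht)
    (ovr_sub ev X T.Dm t) (O.RR.sub t ht) q x)) = pull (on k) m1 q ((absE k (X t) q).symm
      (lesA k (X t) (ovr ev X T.Dm t) q x))
  rw [e3, e2, e1]

theorem β_op (q : ℕ) (t : ℝ) (ht : 0 < t) (x : Ha (tr E) (on k) (X t) q) :
    (T.wang h2).β q t ht ((O.OX k q).r t ht x) = (O.OQ k q).r t ht ((T.wang h2).β q t ht x) := by
  have m1 : IsMap (tr E) (tr E) (X t) (X t) (O.RX.r t) := O.RX.map t ht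
  have m2 : IsMap (tr E) (tr E) (ovr ev X T.Dm t) (ovr ev X T.Dm t) (O.RX.r t) := by
    rw [← congrFun O.eQ t]
    exact O.RQ.map t ht
  have e1 := LinearMap.congr_fun (pullR_fun (k := k) (congrFun O.eQ t) (O.RQ.map t ht) m2
    (empty_subset _) (O.RQ.sub t ht) (O.RX.sub t ht) q)
      (lesB k (ovr_sub ev X T.Dm t) q (absE k (X t) q x))
  have e2 := lesB_pull (k := k) m1 m2 (O.RX.sub t ht) (ovr_sub ev X T.Dm t)
    (ovr_sub ev X T.Dm t) q (absE k (X t) q x)
  have e3 := absE_pull (k := k) m1 (O.RX.sub t ht) q x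
  change lesB k (ovr_sub ev X T.Dm t) q (absE k (X t) q (pull (on k) m1 q x)) =
    pullR (on k) (O.RQ.map t ht) (empty_subset _) (O.RQ.sub t ht) q
      (lesB k (ovr_sub ev X T.Dm t) q (absE k (X t) q x))
  rw [e1, e2, e3]

theorem δ_op (q : ℕ) (t : ℝ) (ht : 0 < t) (x : Hr (tr E) (on k) (ovr ev X T.Dm t) ∅ q) :
    (T.wang h2).δ q t ht ((O.OQ k q).r t ht x) =
      (O.OP k (q + 1)).r t ht ((T.wang h2).δ q t ht x) := by
  have m1 : IsMap (tr E) (tr E) (X t) (X t) (O.RX.r t) := O.RX.map t ht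
  have s1 : MapsTo (O.RX.r t) (ovr ev X T.Dm t) (ovr ev X T.Dm t) := by
    rw [← congrFun O.eR t]
    exact O.RR.sub t ht
  have m2 : IsMap (tr E) (tr E) (ovr ev X T.Dm t) (ovr ev X T.Dm t) (O.RX.r t) := by
    rw [← congrFun O.eQ t]
    exact O.RQ.map t ht
  have e1 := LinearMap.congr_fun (pullR_fun (k := k) (congrFun O.eQ t) (O.RQ.map t ht) m2
    (empty_subset _) (O.RQ.sub t ht) (O.RX.sub t ht) q) x
  have e2 := LinearMap.congr_fun (pullR_fun (k := k) (congrFun O.eR t) (O.RR.map t ht) m1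
    (ovr_sub ev X T.Dm t) (O.RR.sub t ht) s1 (q + 1)) (lesD k (X t) (ovr ev X T.Dm t) q x)
  have e3 := lesD_pull (k := k) m1 m2 (ovr_sub ev X T.Dm t) s1 (O.RX.sub t ht) q x
  change lesD k (X t) (ovr ev X T.Dm t) q (pullR (on k) (O.RQ.map t ht) (empty_subset _)
    (O.RQ.sub t ht) q x) = pullR (on k) (O.RR.map t ht) (ovr_sub ev X T.Dm t) (O.RR.sub t ht)
      (q + 1) (lesD k (X t) (ovr ev X T.Dm t) q x)
  rw [e1, e2, e3]

theorem isoEmpty_op {A : ℝ → Set E} (R : SpOp A (fun _ => ∅)) (k : Type) [Field k] (hA : Mono A)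
    (q : ℕ) : IsoOp (isoEmpty k A hA q) (R.pm k hA mono_empty (fun t => empty_subset _) q)
      (R.pma k hA q) := fun t ht x =>
  (absE_symm_pull (k := k) (R.map t ht) (R.sub t ht) q x).symm

theorem iQ_op (q : ℕ) : IntlOp ((T.wang h2).iQ q) (O.OQ k q) (O.OG k q) :=
  PMIso.intlOp ⟨fun t ht => LinearEquiv.refl k _, fun _ _ _ _ _ _ => rfl⟩ _ T.c0 _
    (fun _ _ _ => rfl) (isoEmpty_op O.RO k T.Om_mono q).symm
    (T.tm.intlOp O.RQ O.RO k (mono_ovr T.X_mono _) mono_empty T.Om_mono mono_empty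
      (fun t => empty_subset _) (fun t => empty_subset _) T.c0 q O.tm)

theorem isoExc_op (q : ℕ) : IsoOp (T.isoExc h2 q) (O.OP k q)
    (O.RP.pm k (mono_ovr T.X_mono _) (mono_ovr T.X_mono _)
      (fun t => ovr_mono subset_rfl inter_subset_left) q) := fun t ht x => by
  have m1 : IsMap (tr E) (tr E) (X t) (X t) (O.RX.r t) := O.RX.map t ht
  have s1 : MapsTo (O.RX.r t) (ovr ev X T.Dm t) (ovr ev X T.Dm t) := by
    rw [← congrFun O.eR t]
    exact O.RR.sub t ht
  have m2 : IsMap (tr E) (tr E) (ovr ev X T.Dp t) (ovr ev X T.Dp t) (O.RX.r t) := by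
    rw [← congrFun O.eP t]
    exact O.RP.map t ht
  have s2 : MapsTo (O.RX.r t) (ovr ev X (T.Dp ∩ T.Dm) t) (ovr ev X (T.Dp ∩ T.Dm) t) := by
    rw [← congrFun O.eP t]
    exact O.RP.sub t ht
  have e1 := LinearMap.congr_fun (pullR_fun (k := k) (congrFun O.eR t) (O.RR.map t ht) m1
    (ovr_sub ev X T.Dm t) (O.RR.sub t ht) s1 q) x
  have e2 := LinearMap.congr_fun (pullR_fun (k := k) (congrFun O.eP t) (O.RP.map t ht) m2
    (ovr_mono subset_rfl inter_subset_left) (O.RP.sub t ht) s2 q)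
      (resR (ovr_sub ev X T.Dp t) (ovr_mono subset_rfl inter_subset_right) q x)
  have e3 := pullR_resR (k := k) m1 m2 (ovr_sub ev X T.Dm t) s1
    (ovr_mono subset_rfl inter_subset_left) s2 (ovr_sub ev X T.Dp t)
    (ovr_mono subset_rfl inter_subset_right) (ovr_sub ev X T.Dp t)
    (ovr_mono subset_rfl inter_subset_right) q x
  change resR (ovr_sub ev X T.Dp t) (ovr_mono subset_rfl inter_subset_right) q
    (pullR (on k) (O.RR.map t ht) (ovr_sub ev X T.Dm t) (O.RR.sub t ht) q x) =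
    pullR (on k) (O.RP.map t ht) (ovr_mono subset_rfl inter_subset_left) (O.RP.sub t ht) q
      (resR (ovr_sub ev X T.Dp t) (ovr_mono subset_rfl inter_subset_right) q x)
  rw [e1, e2, e3]

theorem iP0_op (q : ℕ) : IntlOp (T.iP0 h2 q) (O.OP k q)
    (O.RC.pm k (mono_cub (m + 1) T.Om_mono) (mono_bdc (m + 1) T.Om_mono)
      (fun t => bdc_subset _ _) q) :=
  PMIso.intlOp (T.isoExc h2 q) (isoRefl _) T.c0 _ (O.isoExc_op h2 q) (isoOp_refl _)
    (T.tp.intlOp O.RP O.RC k (mono_ovr T.X_mono _) (mono_ovr T.X_mono _)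
      (mono_cub (m + 1) T.Om_mono) (mono_bdc (m + 1) T.Om_mono)
      (fun t => ovr_mono subset_rfl inter_subset_left) (fun t => bdc_subset _ _) T.c0 q O.tp)

theorem isoSus_op {d : k} (hd : SusOp h2 O.RC O.RO d) (q : ℕ) :
    IsoOp (isoSus h2 T.Om_mono (m + 1) q)
      (O.RC.pm k (mono_cub (m + 1) T.Om_mono) (mono_bdc (m + 1) T.Om_mono)
        (fun t => bdc_subset _ _) (q + (m + 1)))
      ((O.RO.pm k T.Om_mono mono_empty (fun t => empty_subset _) q).smul d) :=
  fun t ht x => hd q t ht x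

theorem IsoOp.smul {A A' : PM k} {I : PMIso A A'} {O : PMOp A} {O' : PMOp A'} (h : IsoOp I O O')
    (d : k) : IsoOp I (O.smul d) (O'.smul d) := fun t ht x => by
  change I.e t ht (d • O.r t ht x) = d • O'.r t ht (I.e t ht x)
  rw [map_smul, h]

theorem iP_op {d : k} (hd : SusOp h2 O.RC O.RO d) (q : ℕ) :
    IntlOp ((T.wang h2).iP q) (O.OP k (q + (m + 1))) ((O.OG k q).smul d) :=
  PMIso.intlOp ⟨fun t ht => LinearEquiv.refl k _, fun _ _ _ _ _ _ => rfl⟩ _ T.c0 _
    (fun _ _ _ => rfl) (IsoOp.smul (isoEmpty_op O.RO k T.Om_mono q) d).symm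
    (PMIso.intlOp (isoRefl _) (isoSus h2 T.Om_mono (m + 1) q).symm T.c0 _ (isoOp_refl _)
      (O.isoSus_op h2 hd q).symm (O.iP0_op h2 (q + (m + 1))))

/-- **The operators on the Wang data of a trivialisation.** -/
noncomputable def wangOp (hd : SusOp h2 O.RC O.RO 1) :
    WangOp (T.wang h2) (O.OG k) (O.OX k) where
  P := O.OP k
  Q := O.OQ k
  α := O.α_op h2
  β := O.β_op h2
  δ := O.δ_op h2
  iQ := O.iQ_op h2
  iP q := by
    have e : (O.OG k q).smul 1 = O.OG k q := by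
      unfold PMOp.smul
      congr 1
      funext t ht
      exact one_smul k _
    rw [← e]
    exact O.iP_op h2 hd q

end TrivOp

end Tr

end Vale.Agent.P216.H901
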